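import Mathlib

/-!
# Block sums on the integers

`T p g k = g k + g (k-1) + ... + g (k-p+1)`.  The key point is the telescoping identity and the
commutation of block sums, which give the identity behind the rational quadrilateral models.
-/

open scoped BigOperators

namespace Vale.Agent.Lib.P058_helper23

/-- indicator of `[0,L)` -/
def Lam (L : ℕ) (k : ℤ) : ℤ := if 0 ≤ k ∧ k < (L : ℤ) then 1 else 0

/-- block sum -/
def T (p : ℕ) (g : ℤ → ℤ) (k : ℤ) : ℤ := ∑ i ∈ Finset.range p, g (k - i)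

lemma T_tele (p : ℕ) (g : ℤ → ℤ) (k : ℤ) : T p g k - T p g (k - 1) = g k - g (k - p) := by
  induction p with
  | zero => simp [T]
  | succ n ih =>
    simp only [T, Finset.sum_range_succ] at ih ⊢
    have h1 : k - 1 - (n : ℤ) = k - ((n + 1 : ℕ) : ℤ) := by push_cast; ring
    rw [h1]
    linarith

lemma T_comm (p q : ℕ) (g : ℤ → ℤ) : T p (T q g) = T q (T p g) := by
  funext k
  simp only [T]
  rw [Finset.sum_comm]
  refine Finset.sum_congr rfl (fun i _ => Finset.sum_congr rfl (fun j _ => ?_))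
  congr 1
  ring

lemma second_diff (p q : ℕ) (χ : ℤ → ℤ) (k : ℤ) :
    T p (T q χ) k - 2 * T p (T q χ) (k - 1) + T p (T q χ) (k - 2) =
      χ k - χ (k - p) - χ (k - q) + χ (k - p - q) := by
  have h1 := T_tele p (T q χ) k
  have h2 := T_tele p (T q χ) (k - 1)
  have h3 := T_tele q χ k
  have h4 := T_tele q χ (k - p)
  have e1 : k - 1 - 1 = k - 2 := by ring
  have e2 : k - 1 - (p : ℤ) = k - (p : ℤ) - 1 := by ring
  rw [e1, e2] at h2
  linarith

/-- The four-term identity for the two block functions. -/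
lemma four_term (α β γ δ L : ℕ) (k : ℤ) :
    T γ (T δ (Lam L)) k - T γ (T δ (Lam L)) (k - α) - T γ (T δ (Lam L)) (k - β)
        + T γ (T δ (Lam L)) (k - α - β) =
      T α (T β (Lam L)) k - T α (T β (Lam L)) (k - γ) - T α (T β (Lam L)) (k - δ)
        + T α (T β (Lam L)) (k - γ - δ) := by
  have e : T α (T β (T γ (T δ (Lam L)))) = T γ (T δ (T α (T β (Lam L)))) := by
    rw [T_comm β γ (T δ (Lam L)), T_comm α γ (T β (T δ (Lam L))), T_comm β δ (Lam L),
      T_comm α δ (T β (Lam L))]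
  have h1 := second_diff α β (T γ (T δ (Lam L))) k
  have h2 := second_diff γ δ (T α (T β (Lam L))) k
  rw [e] at h1
  linarith

lemma Lam_nonneg (L : ℕ) (k : ℤ) : 0 ≤ Lam L k := by
  unfold Lam; split_ifs <;> norm_num

lemma Lam_le_one (L : ℕ) (k : ℤ) : Lam L k ≤ 1 := by
  unfold Lam; split_ifs <;> norm_num

/-- the double block function -/
def C (x y L : ℕ) (k : ℤ) : ℤ := T x (T y (Lam L)) k

lemma C_eq_sum (x y L : ℕ) (k : ℤ) :
    C x y L k = ∑ i ∈ Finset.range x, ∑ j ∈ Finset.range y, Lam L (k - i - j) := rfl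

lemma C_nonneg (x y L : ℕ) (k : ℤ) : 0 ≤ C x y L k := by
  rw [C_eq_sum]
  exact Finset.sum_nonneg (fun _ _ => Finset.sum_nonneg (fun _ _ => Lam_nonneg _ _))

lemma C_le (x y L : ℕ) (k : ℤ) : C x y L k ≤ (x : ℤ) * y := by
  rw [C_eq_sum]
  calc ∑ i ∈ Finset.range x, ∑ j ∈ Finset.range y, Lam L (k - i - j)
      ≤ ∑ _i ∈ Finset.range x, ∑ _j ∈ Finset.range y, (1 : ℤ) :=
        Finset.sum_le_sum (fun _ _ => Finset.sum_le_sum (fun _ _ => Lam_le_one _ _))
    _ = (x : ℤ) * y := by simp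

lemma C_eq_of_bulk (x y L : ℕ) (k : ℤ) (h1 : (x : ℤ) + y ≤ k) (h2 : k < L) :
    C x y L k = (x : ℤ) * y := by
  rw [C_eq_sum]
  have : ∀ i ∈ Finset.range x, ∀ j ∈ Finset.range y, Lam L (k - i - j) = 1 := by
    intro i hi j hj
    have hi' : (i : ℤ) < x := by exact_mod_cast Finset.mem_range.mp hi
    have hj' : (j : ℤ) < y := by exact_mod_cast Finset.mem_range.mp hj
    unfold Lam
    rw [if_pos]
    constructor <;> omega
  rw [Finset.sum_congr rfl (fun i hi => Finset.sum_congr rfl (fun j hj => this i hi j hj))]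
  simp

lemma C_eq_zero_of_neg (x y L : ℕ) (k : ℤ) (h : k < 0) : C x y L k = 0 := by
  rw [C_eq_sum]
  refine Finset.sum_eq_zero (fun i _ => Finset.sum_eq_zero (fun j _ => ?_))
  unfold Lam
  rw [if_neg]
  omega

lemma C_eq_zero_of_large (x y L : ℕ) (k : ℤ) (h : (L : ℤ) + x + y ≤ k) : C x y L k = 0 := by
  rw [C_eq_sum]
  refine Finset.sum_eq_zero (fun i hi => Finset.sum_eq_zero (fun j hj => ?_))
  have hi' : (i : ℤ) < x := by exact_mod_cast Finset.mem_range.mp hi
  have hj' : (j : ℤ) < y := by exact_mod_cast Finset.mem_range.mp hj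
  unfold Lam
  rw [if_neg]
  omega

/-- contingency tables with prescribed margins and comonotone corners -/
lemma table (x1 x2 x3 y1 y2 y3 : ℕ) (h : x1 + x2 + x3 = y1 + y2 + y3) :
    ∃ w : Fin 3 → Fin 3 → ℕ,
      w 0 0 + w 0 1 + w 0 2 = x1 ∧ w 1 0 + w 1 1 + w 1 2 = x2 ∧ w 2 0 + w 2 1 + w 2 2 = x3 ∧
      w 0 0 + w 1 0 + w 2 0 = y1 ∧ w 0 1 + w 1 1 + w 2 1 = y2 ∧ w 0 2 + w 1 2 + w 2 2 = y3 ∧
      w 0 0 = min x1 y1 ∧ w 2 2 = min x3 y3 := by
  -- corner entries
  set a := min x1 y1 with ha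
  set b := min x3 y3 with hb
  have ha1 : a ≤ x1 := min_le_left _ _
  have ha2 : a ≤ y1 := min_le_right _ _
  have hb1 : b ≤ x3 := min_le_left _ _
  have hb2 : b ≤ y3 := min_le_right _ _
  have ha3 : a = x1 ∨ a = y1 := by rw [ha]; omega
  have hb3 : b = x3 ∨ b = y3 := by rw [hb]; omega
  -- the remaining problem: rows (x1-a, x2, x3-b), columns (y1-a, y2, y3-b)
  -- entries: w01 w02 w10 w11 w12 w20 w21
  have key : ∃ w01 w02 w10 w11 w12 w20 w21 : ℕ,
      w01 + w02 = x1 - a ∧ w10 + w11 + w12 = x2 ∧ w20 + w21 = x3 - b ∧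
      w10 + w20 = y1 - a ∧ w01 + w11 + w21 = y2 ∧ w02 + w12 = y3 - b := by
    rcases ha3 with ha3 | ha3 <;> rcases hb3 with hb3 | hb3
    · -- rows 1 and 3 are exhausted: only row 2 remains
      exact ⟨0, 0, y1 - a, y2, y3 - b, 0, 0, by omega, by omega, by omega, by omega, by omega,
        by omega⟩
    · -- row 1 exhausted, column 3 exhausted: row 3 and row 2 fill columns 1, 2
      by_cases hc : x3 - b ≤ y1 - a
      · exact ⟨0, 0, y1 - a - (x3 - b), y2, 0, x3 - b, 0, by omega, by omega, by omega, by omega,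
          by omega, by omega⟩
      · exact ⟨0, 0, 0, x2, 0, y1 - a, x3 - b - (y1 - a), by omega, by omega, by omega, by omega,
          by omega, by omega⟩
    · -- column 1 exhausted, row 3 exhausted
      by_cases hc : x1 - a ≤ y3 - b
      · exact ⟨0, x1 - a, 0, y2, y3 - b - (x1 - a), 0, 0, by omega, by omega, by omega, by omega,
          by omega, by omega⟩
      · exact ⟨x1 - a - (y3 - b), y3 - b, 0, x2, 0, 0, 0, by omega, by omega, by omega, by omega,
          by omega, by omega⟩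
    · -- columns 1 and 3 exhausted: only column 2 remains
      exact ⟨x1 - a, 0, 0, x2, 0, 0, x3 - b, by omega, by omega, by omega, by omega, by omega,
        by omega⟩
  obtain ⟨w01, w02, w10, w11, w12, w20, w21, h1, h2, h3, h4, h5, h6⟩ := key
  refine ⟨![![a, w01, w02], ![w10, w11, w12], ![w20, w21, b]], ?_⟩
  simp only [Matrix.cons_val_zero, Matrix.cons_val_one, Matrix.cons_val]
  refine ⟨?_, ?_, ?_, ?_, ?_, ?_, ?_, ?_⟩ <;> first | trivial | omega

end Vale.Agent.Lib.P058_helper23
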