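import Vale.Agent.Lib.P058_helper23.Core
import Mathlib

/-!
# The conjugate criterion for subtransitive sets
-/

open scoped BigOperators

namespace Vale.Agent.Lib.P058_helper23

/-- **Conjugate criterion.**  Let `K` be a subfield of the reals, `ψ` a field embedding of `K` into
the reals and `lam` a `K`-rational affine dependency of the points `p i`.  If the `ψ`-conjugate
dependency has at most one positive coefficient `ψ (lam i0)`, and `{p i}` is subtransitive, then
all the points with negative conjugate coefficient coincide with `p i0`. -/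
theorem conjugate_criterion {d : ℕ} {ι : Type*} [Fintype ι] (K : Subfield ℝ) (ψ : K →+* ℝ)
    (p : ι → E d) (hp : IsSubtransitive (Set.range p)) (lam : ι → K)
    (hsum : ∑ i, lam i = 0) (hdep : ∑ i, ((lam i : K) : ℝ) • p i = 0)
    (i0 : ι) (hc0 : ∀ i, i ≠ i0 → ψ (lam i) ≤ 0) (i : ι) (hi : ψ (lam i) < 0) : p i = p i0 := by
  by_contra hne
  have hd : dist (p i) (p i0) ^ 2 ≠ 0 := by
    have : dist (p i) (p i0) ≠ 0 := dist_ne_zero.mpr hne
    positivity
  obtain ⟨ℓ, hℓ⟩ : ∃ ℓ : Module.Dual K ℝ, ℓ (dist (p i) (p i0) ^ 2) ≠ 0 := by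
    by_contra hcon
    push Not at hcon
    exact hd ((Module.forall_dual_apply_eq_zero_iff K _).mp hcon)
  let G : ℝ →+ ℝ := AddMonoidHom.mk' (fun r => ψ (ℓ r)) (by intro u v; simp)
  have hG : ∀ j r, G (((lam j : K) : ℝ) * r) = ψ (lam j) * G r := by
    intro j r
    have : ((lam j : K) : ℝ) * r = lam j • r := by
      rw [Subfield.smul_def, smul_eq_mul]
    show ψ (ℓ (((lam j : K) : ℝ) * r)) = ψ (lam j) * ψ (ℓ r)
    rw [this, map_smul, smul_eq_mul, map_mul]
  have hsumR : ∑ j, ((lam j : K) : ℝ) = 0 := by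
    have := congrArg (fun x : K => (x : ℝ)) hsum
    simpa using this
  have hc : ∑ j, ψ (lam j) = 0 := by
    rw [← map_sum, hsum, map_zero]
  have hz := energy_subtransitive p hp (fun j => ((lam j : K) : ℝ)) hsumR hdep G
    (fun j => ψ (lam j)) hG hc i0 hc0 i hi
  have hinj : Function.Injective ψ := ψ.injective
  have : ℓ (dist (p i) (p i0) ^ 2) = 0 := by
    apply hinj
    rw [map_zero]
    exact hz
  exact hℓ this

/-- The shift of an algebraically independent family by constants is algebraically independent. -/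
lemma algebraicIndependent_add_const {n : ℕ} (x : Fin n → ℝ) (s : Fin n → ℚ)
    (hx : AlgebraicIndependent ℚ x) :
    AlgebraicIndependent ℚ (fun i => x i + (s i : ℝ)) := by
  rw [algebraicIndependent_iff] at hx ⊢
  intro q hq
  -- substitute
  let σ : MvPolynomial (Fin n) ℚ →ₐ[ℚ] MvPolynomial (Fin n) ℚ :=
    MvPolynomial.aeval (fun i => MvPolynomial.X i + MvPolynomial.C (s i))
  let τ : MvPolynomial (Fin n) ℚ →ₐ[ℚ] MvPolynomial (Fin n) ℚ :=
    MvPolynomial.aeval (fun i => MvPolynomial.X i - MvPolynomial.C (s i))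
  have hτσ : τ.comp σ = AlgHom.id ℚ _ := by
    ext i
    simp [σ, τ]
  have h1 : MvPolynomial.aeval x (σ q) = MvPolynomial.aeval (fun i => x i + (s i : ℝ)) q := by
    have : (MvPolynomial.aeval x).comp σ = MvPolynomial.aeval (fun i => x i + (s i : ℝ)) := by
      ext i
      simp [σ]
    rw [← this]
    rfl
  have h2 : σ q = 0 := hx _ (by rw [h1]; exact hq)
  have h3 : τ (σ q) = q := by
    have := congrArg (fun f => f q) hτσ
    simpa using this
  rw [← h3, h2, map_zero]

/-- A field embedding of `F(x)` that sends an algebraically independent family to another one. -/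
lemma exists_embedding_of_algebraicIndependent {F : Type*} [Field F] [Algebra F ℝ] {n : ℕ}
    (x y : Fin n → ℝ) (hx : AlgebraicIndependent F x) (hy : AlgebraicIndependent F y) :
    ∃ (K : Subfield ℝ) (hK : ∀ i, x i ∈ K) (ψ : K →+* ℝ), ∀ i, ψ ⟨x i, hK i⟩ = y i := by
  let Fx := IntermediateField.adjoin F (Set.range x)
  let Fy := IntermediateField.adjoin F (Set.range y)
  let ex := hx.aevalEquivField
  let ey := hy.aevalEquivField
  have hmem : ∀ i, x i ∈ Fx := fun i => IntermediateField.subset_adjoin _ _ ⟨i, rfl⟩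
  let ψ0 : Fx →+* ℝ := (algebraMap Fy ℝ).comp
    (ey.toRingEquiv.toRingHom.comp ex.toRingEquiv.symm.toRingHom)
  refine ⟨Fx.toSubfield, hmem, ψ0, ?_⟩
  intro i
  let u : FractionRing (MvPolynomial (Fin n) F) :=
    algebraMap (MvPolynomial (Fin n) F) _ (MvPolynomial.X i)
  have h1 : ex.toRingEquiv u = ⟨x i, hmem i⟩ := by
    apply Subtype.ext
    have := hx.aevalEquivField_algebraMap_apply_coe (MvPolynomial.X i)
    rw [MvPolynomial.aeval_X] at this
    exact this
  have h2 : ex.toRingEquiv.symm ⟨x i, hmem i⟩ = u := by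
    rw [← h1]
    exact ex.toRingEquiv.symm_apply_apply u
  have h3 : ((ey.toRingEquiv u : Fy) : ℝ) = y i := by
    have := hy.aevalEquivField_algebraMap_apply_coe (MvPolynomial.X i)
    rw [MvPolynomial.aeval_X] at this
    exact this
  show ((ey.toRingEquiv (ex.toRingEquiv.symm ⟨x i, hmem i⟩) : Fy) : ℝ) = y i
  rw [h2, h3]

/-- **Generic cyclic quadrilaterals are not subtransitive.**  If the diagonals of `p` cross at the
point `μ p₀ + (1-μ) p₂ = ν p₁ + (1-ν) p₃`, where `μ > 0`, `0 < ν < 1` and `μ, ν` are algebraically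
independent over the rationals, and the points are distinct, then `{p i}` is not subtransitive. -/
theorem generic_not_subtransitive {d : ℕ} (p : Fin 4 → E d) (μ ν : ℝ) (hμ : 0 < μ) (hν0 : 0 < ν)
    (hν1 : ν < 1) (hind : AlgebraicIndependent ℚ ![μ, ν])
    (hrel : μ • p 0 + (1 - μ) • p 2 = ν • p 1 + (1 - ν) • p 3)
    (hinj : Function.Injective p) : ¬ IsSubtransitive (Set.range p) := by
  intro hsub
  have hy : AlgebraicIndependent ℚ (fun i => (![μ, ν] : Fin 2 → ℝ) i + ((![1, 0] : Fin 2 → ℚ) i : ℝ)) :=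
    algebraicIndependent_add_const _ _ hind
  obtain ⟨K, hK, ψ, hψ⟩ := exists_embedding_of_algebraicIndependent _ _ hind hy
  have h0 := hψ 0
  have h1 := hψ 1
  simp only [Matrix.cons_val_zero, Matrix.cons_val_one, Rat.cast_one, Rat.cast_zero, add_zero] at h0 h1
  let m : K := ⟨(![μ, ν] : Fin 2 → ℝ) 0, hK 0⟩
  let n : K := ⟨(![μ, ν] : Fin 2 → ℝ) 1, hK 1⟩
  have hm : (m : ℝ) = μ := rfl
  have hn : (n : ℝ) = ν := rfl
  have hψm : ψ m = μ + 1 := h0
  have hψn : ψ n = ν := h1
  let lam : Fin 4 → K := ![m, -n, 1 - m, -(1 - n)]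
  have hz := conjugate_criterion K ψ p hsub lam
    (by simp [lam, Fin.sum_univ_four]; ring)
    (by
      simp only [lam, Fin.sum_univ_four, Matrix.cons_val_zero, Matrix.cons_val_one, Matrix.cons_val]
      push_cast
      rw [hm, hn]
      have : μ • p 0 + (-ν) • p 1 + (1 - μ) • p 2 + (-(1 - ν)) • p 3 =
          (μ • p 0 + (1 - μ) • p 2) - (ν • p 1 + (1 - ν) • p 3) := by
        simp only [neg_smul]; abel
      rw [this, hrel, sub_self])
    0
    (by
      intro i _
      fin_cases i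
      · simp_all
      · simp [lam, hψn]; linarith
      · simp [lam, hψm]; linarith
      · simp [lam, hψn]; linarith)
    1
    (by simp [lam, hψn]; linarith)
  exact absurd (hinj hz) (by decide)

/-- Explicit additive functions: conjugation of `ℚ(√2)` on exponents. -/
lemma exists_quadratic_G (r0 : ℝ) (h0 : r0 ≠ 0) :
    ∃ G : ℝ →+ ℝ, G r0 ≠ 0 ∧ ∀ (x y : ℚ) (r : ℝ),
      G (((x : ℝ) + y * Real.sqrt 2) * r) = ((x : ℝ) - y * Real.sqrt 2) * G r := by
  obtain ⟨φ, hφ⟩ : ∃ φ : Module.Dual ℚ ℝ, φ r0 ≠ 0 := by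
    by_contra hcon
    push Not at hcon
    exact h0 ((Module.forall_dual_apply_eq_zero_iff ℚ _).mp hcon)
  have hs : Real.sqrt 2 * Real.sqrt 2 = 2 := Real.mul_self_sqrt (by norm_num)
  let G : ℝ →+ ℝ := AddMonoidHom.mk' (fun r => ((φ (Real.sqrt 2 * r) : ℚ) : ℝ) - Real.sqrt 2 * ((φ r : ℚ) : ℝ))
    (by
      intro u v
      simp only [mul_add, map_add]
      push_cast
      ring)
  have hGdef : ∀ r, G r = ((φ (Real.sqrt 2 * r) : ℚ) : ℝ) - Real.sqrt 2 * ((φ r : ℚ) : ℝ) := fun r => rfl
  refine ⟨G, ?_, ?_⟩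
  · rw [hGdef]
    intro hz
    have hq : ((φ r0 : ℚ) : ℝ) ≠ 0 := by exact_mod_cast hφ
    have : Real.sqrt 2 = (((φ (Real.sqrt 2 * r0) / φ r0 : ℚ)) : ℝ) := by
      push_cast
      field_simp
      linarith
    have hirr := irrational_sqrt_two
    rw [this] at hirr
    exact hirr ⟨_, rfl⟩
  · intro x y r
    rw [hGdef, hGdef]
    have e1 : Real.sqrt 2 * (((x : ℝ) + y * Real.sqrt 2) * r) = (x : ℚ) • (Real.sqrt 2 * r) + ((2 * y : ℚ)) • r := by
      simp only [Rat.smul_def]
      push_cast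
      linear_combination (y * r) * hs
    have e2 : ((x : ℝ) + y * Real.sqrt 2) * r = (x : ℚ) • r + (y : ℚ) • (Real.sqrt 2 * r) := by
      simp only [Rat.smul_def]
      ring
    rw [e1, e2, map_add, map_add, map_smul, map_smul, map_smul, map_smul]
    simp only [smul_eq_mul]
    push_cast
    linear_combination (-(y : ℝ) * ((φ r : ℚ) : ℝ)) * hs

/-- The conjugate criterion for the field `ℚ(√2)`, in explicit form. -/
theorem quadratic_criterion {d : ℕ} {ι : Type*} [Fintype ι] (p : ι → E d)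
    (hp : IsSubtransitive (Set.range p)) (x y : ι → ℚ)
    (hsum1 : ∑ i, x i = 0) (hsum2 : ∑ i, y i = 0)
    (hdep : ∑ i, ((x i : ℝ) + y i * Real.sqrt 2) • p i = 0) (i0 : ι)
    (hc0 : ∀ i, i ≠ i0 → (x i : ℝ) - y i * Real.sqrt 2 ≤ 0) (i : ι)
    (hi : (x i : ℝ) - y i * Real.sqrt 2 < 0) : p i = p i0 := by
  by_contra hne
  have hd : dist (p i) (p i0) ^ 2 ≠ 0 := by
    have : dist (p i) (p i0) ≠ 0 := dist_ne_zero.mpr hne
    positivity
  obtain ⟨G, hG0, hG⟩ := exists_quadratic_G _ hd
  have h1 : ∑ j, ((x j : ℝ)) = 0 := by exact_mod_cast hsum1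
  have h2 : ∑ j, ((y j : ℝ)) = 0 := by exact_mod_cast hsum2
  have hz := energy_subtransitive p hp (fun j => (x j : ℝ) + y j * Real.sqrt 2)
    (by rw [Finset.sum_add_distrib, ← Finset.sum_mul, h1, h2]; ring) hdep G
    (fun j => (x j : ℝ) - y j * Real.sqrt 2) (fun j r => hG (x j) (y j) r)
    (by rw [Finset.sum_sub_distrib, ← Finset.sum_mul, h1, h2]; ring) i0 hc0 i hi
  exact hG0 hz

/-- An explicit cyclic quadrilateral which is not subtransitive: on the unit circle, the kite with
vertices `(1,0)`, `(h,k)`, `(-1,0)`, `(h,-k)`, where `h = √2 - 1` and `k = √(2√2 - 2)`. -/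
theorem kite_not_subtransitive :
    let h : ℝ := Real.sqrt 2 - 1
    let k : ℝ := Real.sqrt (2 * Real.sqrt 2 - 2)
    let p : Fin 4 → E 2 := ![WithLp.toLp 2 ![1, 0], WithLp.toLp 2 ![h, k], WithLp.toLp 2 ![-1, 0],
      WithLp.toLp 2 ![h, -k]]
    (∀ i, ‖p i‖ = 1) ∧ Function.Injective p ∧ ¬ IsSubtransitive (Set.range p) := by
  intro h k p
  have ht : Real.sqrt 2 * Real.sqrt 2 = 2 := Real.mul_self_sqrt (by norm_num)
  have ht1 : 1 < Real.sqrt 2 := by
    rw [show (1 : ℝ) = Real.sqrt 1 by simp]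
    exact Real.sqrt_lt_sqrt (by norm_num) (by norm_num)
  have ht2 : Real.sqrt 2 < 2 := by nlinarith
  have hk2 : k * k = 2 * Real.sqrt 2 - 2 := Real.mul_self_sqrt (by linarith)
  have hkpos : 0 < k := Real.sqrt_pos.mpr (by linarith)
  have hhk : h * h + k * k = 1 := by
    rw [hk2]
    simp only [h]
    nlinarith
  have hnorm : ∀ u v : ℝ, u * u + v * v = 1 → ‖(WithLp.toLp 2 ![u, v] : E 2)‖ = 1 := by
    intro u v huv
    rw [EuclideanSpace.norm_eq, Real.sqrt_eq_one]
    simp only [Fin.sum_univ_two, Real.norm_eq_abs, sq_abs]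
    simp only [Matrix.cons_val_zero, Matrix.cons_val_one]
    nlinarith
  have hcoord : ∀ u v u' v' : ℝ, (WithLp.toLp 2 ![u, v] : E 2) = WithLp.toLp 2 ![u', v'] →
      u = u' ∧ v = v' := by
    intro u v u' v' he
    have h0 := congrArg (fun w : E 2 => w 0) he
    have h1 := congrArg (fun w : E 2 => w 1) he
    exact ⟨by simpa using h0, by simpa using h1⟩
  have hh1 : h < 1 := by simp only [h]; linarith
  have hh0 : 0 < h := by simp only [h]; linarith
  refine ⟨?_, ?_, ?_⟩
  · intro i
    fin_cases i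
    · exact hnorm 1 0 (by norm_num)
    · exact hnorm h k hhk
    · exact hnorm (-1) 0 (by norm_num)
    · exact hnorm h (-k) (by nlinarith)
  · intro i j hij
    fin_cases i <;> fin_cases j <;> first
      | rfl
      | (exfalso
         obtain ⟨h0, h1⟩ := hcoord _ _ _ _ hij
         first
           | (norm_num at h0; done)
           | (norm_num at h1; done)
           | linarith
           | (simp at h0 h1; linarith)
           | (simp at h0 h1; done))
  · intro hsub
    -- the relation with coefficients in `ℚ(√2)`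
    have hdep : ∑ i, (((![0, -1/2, 1, -1/2] : Fin 4 → ℚ) i : ℝ)
        + ((![1/2, 0, -1/2, 0] : Fin 4 → ℚ) i : ℝ) * Real.sqrt 2) • p i = 0 := by
      simp only [Fin.sum_univ_four]
      ext t
      fin_cases t
      · simp [p, h] <;> ring_nf
      · simp [p] <;> ring_nf
    have := quadratic_criterion p hsub ![0, -1/2, 1, -1/2] ![1/2, 0, -1/2, 0]
      (by simp [Fin.sum_univ_four] <;> norm_num) (by simp [Fin.sum_univ_four] <;> norm_num)
      hdep
      2
      (by
        intro i hi
        fin_cases i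
        · simp <;> linarith
        · simp <;> norm_num
        · exact absurd rfl hi
        · simp <;> norm_num)
      0 (by simp <;> linarith)
    obtain ⟨h0, -⟩ := hcoord _ _ _ _ this
    norm_num at h0

/-- **Conjugate realization.**  If a finite set `{p i}` of distinct points is subtransitive then,
for every subfield `K` of the reals and every field embedding `ψ : K → ℝ`, there are distinct
points `u i` of a common sphere around the origin of a Euclidean space that satisfy the
`ψ`-conjugate of every `K`-rational affine dependency of the `p i`. -/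
theorem conjugate_realization {d : ℕ} {ι : Type} [Fintype ι] (K : Subfield ℝ) (ψ : K →+* ℝ)
    (p : ι → E d) (hinj : Function.Injective p) (hp : IsSubtransitive (Set.range p)) :
    ∃ (κ : Type) (_ : Fintype κ) (u : ι → EuclideanSpace ℝ κ),
      Function.Injective u ∧ (∀ i j, ‖u i‖ = ‖u j‖) ∧
      ∀ lam : ι → K, ∑ i, lam i = 0 → ∑ i, ((lam i : K) : ℝ) • p i = 0 →
        ∑ i, ψ (lam i) • u i = 0 := by
  classical
  obtain ⟨-, n, Y, hT, f, hfY, hf⟩ := hp
  set x : ι → E n := fun i => f (p i) with hx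
  have hxY : ∀ i, x i ∈ Y := fun i => hfY _ ⟨i, rfl⟩
  have hxd : ∀ i j, dist (x i) (x j) = dist (p i) (p j) :=
    fun i j => hf _ ⟨i, rfl⟩ _ ⟨j, rfl⟩
  -- separating functionals
  have hℓ : ∀ j k : ι, ∃ ℓ : Module.Dual K ℝ, j ≠ k → ℓ (dist (p j) (p k) ^ 2) ≠ 0 := by
    intro j k
    by_cases hjk : j = k
    · exact ⟨0, fun h => absurd hjk h⟩
    · have hd : dist (p j) (p k) ^ 2 ≠ 0 := by
        have : dist (p j) (p k) ≠ 0 := dist_ne_zero.mpr (fun h => hjk (hinj h))
        positivity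
      obtain ⟨ℓ, hℓ⟩ : ∃ ℓ : Module.Dual K ℝ, ℓ (dist (p j) (p k) ^ 2) ≠ 0 := by
        by_contra hcon
        push Not at hcon
        exact hd ((Module.forall_dual_apply_eq_zero_iff K _).mp hcon)
      exact ⟨ℓ, fun _ => hℓ⟩
  choose ℓ hℓ using hℓ
  let κ := {z // z ∈ Y} × (ι × ι)
  let w : ι → κ → ℝ := fun i t => ψ (ℓ t.2.1 t.2.2 (dist (x i) (t.1 : E n) ^ 2))
  refine ⟨κ, inferInstance, fun i => WithLp.toLp 2 (w i), ?_, ?_, ?_⟩
  · -- distinctness
    intro j k hjk
    by_contra hne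
    have h1 := congrArg (fun v : EuclideanSpace ℝ κ => v (⟨x k, hxY k⟩, (j, k))) hjk
    simp only [w] at h1
    rw [dist_self, hxd] at h1
    have h2 : ψ (ℓ j k (dist (p j) (p k) ^ 2)) = ψ (ℓ j k ((0 : ℝ) ^ 2)) := h1
    have h3 := ψ.injective h2
    simp only [ne_eq, OfNat.ofNat_ne_zero, not_false_eq_true, zero_pow, map_zero] at h3
    exact hℓ j k hne h3
  · -- equal norms
    intro i j
    have hsq : ∀ i, ‖(WithLp.toLp 2 (w i) : EuclideanSpace ℝ κ)‖ ^ 2 = ∑ t, w i t ^ 2 := by
      intro i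
      rw [EuclideanSpace.norm_sq_eq]
      simp
    obtain ⟨g, hgY, hgx⟩ := hT _ (hxY i) _ (hxY j)
    apply (pow_left_inj₀ (norm_nonneg _) (norm_nonneg _) (two_ne_zero)).mp
    rw [hsq, hsq, Fintype.sum_prod_type, Fintype.sum_prod_type]
    -- sums over `Y`
    have hconv : ∀ h : E n → ℝ, ∑ z : {z // z ∈ Y}, h z = ∑ z ∈ Y, h z :=
      fun h => Finset.sum_coe_sort Y h
    rw [hconv (fun z => ∑ t : ι × ι, ψ (ℓ t.1 t.2 (dist (x i) z ^ 2)) ^ 2),
      hconv (fun z => ∑ t : ι × ι, ψ (ℓ t.1 t.2 (dist (x j) z ^ 2)) ^ 2)]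
    rw [← sum_comp_eq Y g g.injective hgY (fun z => ∑ t : ι × ι, ψ (ℓ t.1 t.2 (dist (x j) z ^ 2)) ^ 2)]
    refine Finset.sum_congr rfl (fun z _ => Finset.sum_congr rfl (fun t _ => ?_))
    rw [← hgx, g.dist_eq]
  · -- the conjugate dependencies
    intro lam hsum hdep
    have hsumR : ∑ j, ((lam j : K) : ℝ) = 0 := by
      have := congrArg (fun x : K => (x : ℝ)) hsum
      simpa using this
    set a : ι → ℝ := fun i => ((lam i : K) : ℝ) with ha
    have hdepx : ∑ i, a i • x i = 0 := by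
      have h1 := norm_sq_weighted a x hsumR
      have h2 := norm_sq_weighted a p hsumR
      rw [hdep] at h2
      simp_rw [hxd] at h1
      rw [← h2] at h1
      simpa using h1
    have hpot : ∀ z : E n, ∑ i, a i * dist (x i) z ^ 2 = ∑ i, a i * ‖x i‖ ^ 2 := by
      intro z
      have h1 : ∀ i, a i * dist (x i) z ^ 2 =
          a i * ‖x i‖ ^ 2 - 2 * inner ℝ (a i • x i) z + a i * ‖z‖ ^ 2 := by
        intro i
        rw [dist_eq_norm, norm_sub_sq_real, real_inner_smul_left]
        ring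
      simp_rw [h1]
      rw [Finset.sum_add_distrib, Finset.sum_sub_distrib, ← Finset.mul_sum, ← sum_inner, hdepx,
        inner_zero_left, ← Finset.sum_mul, hsumR]
      ring
    ext t
    -- the value at the coordinate `t`
    have hmain : ∑ i, ψ (lam i) * w i t = ψ (ℓ t.2.1 t.2.2 (∑ i, a i * ‖x i‖ ^ 2)) := by
      rw [← hpot (t.1 : E n), map_sum, map_sum]
      refine Finset.sum_congr rfl (fun i _ => ?_)
      have : a i * dist (x i) (t.1 : E n) ^ 2 = lam i • (dist (x i) (t.1 : E n) ^ 2) := by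
        rw [Subfield.smul_def, smul_eq_mul]
      rw [this, map_smul, smul_eq_mul, map_mul]
    -- the constant vanishes
    have hb : ∑ i, a i * ‖x i‖ ^ 2 = 0 := by
      have hYpos : 0 < (Y.card : ℝ) := by
        exact_mod_cast Finset.card_pos.mpr ⟨(t.1 : E n), t.1.2⟩
      have h1 : ∑ z ∈ Y, ∑ i, a i * dist (x i) z ^ 2 = (Y.card : ℝ) * ∑ i, a i * ‖x i‖ ^ 2 := by
        rw [Finset.sum_congr rfl (fun z _ => hpot z)]
        simp
      have h2 : ∑ z ∈ Y, ∑ i, a i * dist (x i) z ^ 2 = 0 := by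
        rw [Finset.sum_comm]
        -- the inner sums are all equal
        have hT' : ∀ i k, ∑ z ∈ Y, dist (x i) z ^ 2 = ∑ z ∈ Y, dist (x k) z ^ 2 := by
          intro i k
          obtain ⟨g, hgY, hgx⟩ := hT _ (hxY i) _ (hxY k)
          rw [← sum_comp_eq Y g g.injective hgY (fun z => dist (x k) z ^ 2)]
          refine Finset.sum_congr rfl (fun z _ => ?_)
          rw [← hgx, g.dist_eq]
        simp_rw [← Finset.mul_sum]
        by_cases hι : Nonempty ι
        · obtain ⟨i1⟩ := hι
          simp_rw [hT' _ i1]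
          rw [← Finset.sum_mul, hsumR, zero_mul]
        · have : IsEmpty ι := not_nonempty_iff.mp hι
          simp
      have h3 := h1.symm.trans h2
      exact (mul_eq_zero.mp h3).resolve_left hYpos.ne'
    rw [hb, map_zero, map_zero] at hmain
    have hco : (∑ i, ψ (lam i) • (WithLp.toLp 2 (w i) : EuclideanSpace ℝ κ)).ofLp t =
        ∑ i, ψ (lam i) * w i t := by
      rw [WithLp.ofLp_sum, Finset.sum_apply]
      rfl
    rw [hco, hmain]
    rfl

end Vale.Agent.Lib.P058_helper23
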