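import Mathlib

/-!
# Subtransitive sets: the conjugate energy principle

`IsSubtransitive A` says that the finite set `A` of Euclidean space is congruent to a subset of
a finite set `Y` whose isometry group acts transitively on `Y`.
-/

open scoped BigOperators

namespace Vale.Agent.Lib.P058_helper23

/-- Euclidean `n`-space. -/
abbrev E (n : ℕ) := EuclideanSpace ℝ (Fin n)

/-- A finite set `Y` of Euclidean space is transitive: the isometries of the whole space which
map `Y` onto itself act transitively on `Y`. -/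
def IsTransitive {n : ℕ} (Y : Finset (E n)) : Prop :=
  ∀ y ∈ Y, ∀ y' ∈ Y, ∃ g : E n ≃ᵢ E n, g '' (Y : Set (E n)) = (Y : Set (E n)) ∧ g y = y'

/-- A set `A` of Euclidean space is subtransitive: it is finite and congruent to a subset of a
finite transitive set in some Euclidean space. -/
def IsSubtransitive {d : ℕ} (A : Set (E d)) : Prop :=
  A.Finite ∧ ∃ (n : ℕ) (Y : Finset (E n)), IsTransitive Y ∧
    ∃ f : E d → E n, (∀ a ∈ A, f a ∈ Y) ∧ ∀ a ∈ A, ∀ b ∈ A, dist (f a) (f b) = dist a b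

/-- Sums over `Y` are invariant under a bijection of `Y`. -/
lemma sum_comp_eq {α : Type*} [DecidableEq α] (Y : Finset α) (g : α → α) (hg : Function.Injective g)
    (hY : g '' (Y : Set α) = (Y : Set α)) (h : α → ℝ) :
    ∑ z ∈ Y, h (g z) = ∑ z ∈ Y, h z := by
  have himg : Y.image g = Y := by
    apply Finset.coe_injective
    simpa using hY
  conv_rhs => rw [← himg]
  rw [Finset.sum_image (fun x _ y _ hxy => hg hxy)]

/-- The energy (maximum) principle on a finite set with a family of bijections. -/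
lemma energy_principle {α ι : Type*} [DecidableEq α] [Fintype ι] (Y : Finset α)
    (H : α → ℝ) (c : ι → ℝ) (g : ι → α → α) (i0 : ι)
    (hg : ∀ i (h : α → ℝ), ∑ z ∈ Y, h (g i z) = ∑ z ∈ Y, h z)
    (hc : ∑ i, c i = 0) (hc0 : ∀ i, i ≠ i0 → c i ≤ 0) (B : ℝ)
    (hB : ∀ z ∈ Y, ∑ i, c i * H (g i z) = B) :
    ∀ i, c i < 0 → ∀ z ∈ Y, H (g i z) = H (g i0 z) := by
  classical
  intro i hi z hz
  -- first `B = 0`
  have hY : 0 < (Y.card : ℝ) := by
    exact_mod_cast Finset.card_pos.mpr ⟨z, hz⟩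
  have hsum : ∑ z ∈ Y, ∑ i, c i * H (g i z) = (Y.card : ℝ) * B := by
    rw [Finset.sum_congr rfl hB]
    simp
  have hsum2 : ∑ z ∈ Y, ∑ i, c i * H (g i z) = 0 := by
    rw [Finset.sum_comm]
    have : ∀ i, ∑ z ∈ Y, c i * H (g i z) = c i * ∑ z ∈ Y, H z := by
      intro i
      rw [← Finset.mul_sum, hg i H]
    simp_rw [this]
    rw [← Finset.sum_mul, hc, zero_mul]
  have hB0 : B = 0 := by
    have := hsum.symm.trans hsum2
    exact (mul_eq_zero.mp this).resolve_left hY.ne'
  -- the pointwise identity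
  have key : ∀ z ∈ Y, ∑ i, c i * (H (g i z) - H (g i0 z)) ^ 2 = ∑ i, c i * H (g i z) ^ 2 := by
    intro z hz
    have h1 : ∀ i, c i * (H (g i z) - H (g i0 z)) ^ 2 =
        c i * H (g i z) ^ 2 - 2 * H (g i0 z) * (c i * H (g i z)) + H (g i0 z) ^ 2 * c i := by
      intro i; ring
    simp_rw [h1]
    rw [Finset.sum_add_distrib, Finset.sum_sub_distrib, ← Finset.mul_sum, ← Finset.mul_sum, hc,
      hB z hz, hB0]
    ring
  have hS : ∑ z ∈ Y, ∑ i, c i * (H (g i z) - H (g i0 z)) ^ 2 = 0 := by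
    rw [Finset.sum_congr rfl key, Finset.sum_comm]
    have : ∀ i, ∑ z ∈ Y, c i * H (g i z) ^ 2 = c i * ∑ z ∈ Y, H z ^ 2 := by
      intro i
      rw [← Finset.mul_sum, hg i (fun z => H z ^ 2)]
    simp_rw [this]
    rw [← Finset.sum_mul, hc, zero_mul]
  have hnp : ∀ z ∈ Y, ∀ i, c i * (H (g i z) - H (g i0 z)) ^ 2 ≤ 0 := by
    intro z _ i
    by_cases hi : i = i0
    · subst hi; simp
    · exact mul_nonpos_of_nonpos_of_nonneg (hc0 i hi) (sq_nonneg _)
  have h0 := (Finset.sum_eq_zero_iff_of_nonpos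
    (fun z hz => Finset.sum_nonpos (fun i _ => hnp z hz i))).mp hS z hz
  have h00 := (Finset.sum_eq_zero_iff_of_nonpos (fun i _ => hnp z hz i)).mp h0 i (Finset.mem_univ i)
  have h3 : (H (g i z) - H (g i0 z)) ^ 2 = 0 := (mul_eq_zero.mp h00).resolve_left hi.ne
  have h4 : H (g i z) - H (g i0 z) = 0 := by simpa using h3
  linarith

/-- The norm square of an affine-weighted sum of vectors depends only on mutual distances. -/
lemma norm_sq_weighted {V ι : Type*} [NormedAddCommGroup V] [InnerProductSpace ℝ V] [Fintype ι]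
    (a : ι → ℝ) (v : ι → V) (ha : ∑ i, a i = 0) :
    ‖∑ i, a i • v i‖ ^ 2 = -(1 / 2) * ∑ i, ∑ j, a i * a j * dist (v i) (v j) ^ 2 := by
  have h1 : ∀ i j, a i * a j * dist (v i) (v j) ^ 2 =
      a j * (a i * ‖v i‖ ^ 2) + a i * (a j * ‖v j‖ ^ 2) -
        2 * (a i * a j * inner ℝ (v i) (v j)) := by
    intro i j
    rw [dist_eq_norm, norm_sub_sq_real]
    ring
  have h2 : ‖∑ i, a i • v i‖ ^ 2 = ∑ i, ∑ j, a i * a j * inner ℝ (v i) (v j) := by
    rw [← real_inner_self_eq_norm_sq, sum_inner]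
    refine Finset.sum_congr rfl (fun i _ => ?_)
    rw [inner_sum]
    refine Finset.sum_congr rfl (fun j _ => ?_)
    rw [real_inner_smul_left, real_inner_smul_right]
    ring
  have h3 : ∑ i, ∑ j, a j * (a i * ‖v i‖ ^ 2) = 0 := by
    refine Finset.sum_eq_zero (fun i _ => ?_)
    rw [← Finset.sum_mul, ha, zero_mul]
  have h4 : ∑ i, ∑ j, a i * (a j * ‖v j‖ ^ 2) = 0 := by
    simp_rw [← Finset.mul_sum]
    rw [← Finset.sum_mul, ha, zero_mul]
  have h5 : ∑ i, ∑ j, a i * a j * dist (v i) (v j) ^ 2 =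
      - (2 * ∑ i, ∑ j, a i * a j * inner ℝ (v i) (v j)) := by
    simp_rw [h1, Finset.sum_sub_distrib, Finset.sum_add_distrib]
    rw [h3, h4, Finset.mul_sum]
    simp_rw [Finset.mul_sum]
    ring
  rw [h2, h5]
  ring

/-- The energy principle for subtransitive sets: if `a` is an affine dependency of the points
`p i`, if `G` is an additive map that converts multiplication by `a i` into multiplication by
`c i`, and the `c i` sum to zero with `c i0` the only positive term, then
`G (dist (p i) (p i0) ^ 2) = 0` whenever `c i < 0`. -/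
theorem energy_subtransitive {d : ℕ} {ι : Type*} [Fintype ι] (p : ι → E d)
    (hp : IsSubtransitive (Set.range p)) (a : ι → ℝ) (ha : ∑ i, a i = 0)
    (hdep : ∑ i, a i • p i = 0) (G : ℝ →+ ℝ) (c : ι → ℝ) (hG : ∀ i r, G (a i * r) = c i * G r)
    (hc : ∑ i, c i = 0) (i0 : ι) (hc0 : ∀ i, i ≠ i0 → c i ≤ 0) (i : ι) (hi : c i < 0) :
    G (dist (p i) (p i0) ^ 2) = 0 := by
  classical
  obtain ⟨-, n, Y, hT, f, hfY, hf⟩ := hp
  set x : ι → E n := fun i => f (p i) with hx
  have hxY : ∀ i, x i ∈ Y := fun i => hfY _ ⟨i, rfl⟩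
  have hxd : ∀ i j, dist (x i) (x j) = dist (p i) (p j) :=
    fun i j => hf _ ⟨i, rfl⟩ _ ⟨j, rfl⟩
  -- dependency transfers to `x`
  have hdepx : ∑ i, a i • x i = 0 := by
    have h1 := norm_sq_weighted a x ha
    have h2 := norm_sq_weighted a p ha
    rw [hdep] at h2
    simp_rw [hxd] at h1
    rw [← h2] at h1
    simpa using h1
  -- the potential identity
  have hpot : ∀ z : E n, ∑ i, a i * dist (x i) z ^ 2 = ∑ i, a i * ‖x i‖ ^ 2 := by
    intro z
    have h1 : ∀ i, a i * dist (x i) z ^ 2 =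
        a i * ‖x i‖ ^ 2 - 2 * inner ℝ (a i • x i) z + a i * ‖z‖ ^ 2 := by
      intro i
      rw [dist_eq_norm, norm_sub_sq_real, real_inner_smul_left]
      ring
    simp_rw [h1]
    rw [Finset.sum_add_distrib, Finset.sum_sub_distrib, ← Finset.mul_sum, ← sum_inner, hdepx,
      inner_zero_left, ← Finset.sum_mul, ha]
    ring
  -- isometries
  have hg : ∀ j, ∃ g : E n ≃ᵢ E n, g '' (Y : Set (E n)) = (Y : Set (E n)) ∧ g (x j) = x i0 :=
    fun j => hT _ (hxY j) _ (hxY i0)
  choose g hgY hgx using hg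
  -- `H = G ∘ F` with `F z = dist (x i0) z ^ 2`
  set H : E n → ℝ := fun z => G (dist (x i0) z ^ 2) with hH
  have hF : ∀ j z, dist (x j) z ^ 2 = dist (x i0) (g j z) ^ 2 := by
    intro j z
    rw [← hgx j, (g j).dist_eq]
  have hmain := energy_principle Y H c (fun j z => g j z) i0
    (fun j h => sum_comp_eq Y (g j) (g j).injective (hgY j) h) hc hc0
    (G (∑ i, a i * ‖x i‖ ^ 2)) (by
      intro z _
      rw [← hpot z, map_sum]
      refine Finset.sum_congr rfl (fun j _ => ?_)
      rw [hG, hF j z])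
  have h1 := hmain i hi (x i0) (hxY i0)
  simp only [hH] at h1
  rw [← hF i (x i0), ← hF i0 (x i0), dist_self, hxd] at h1
  simpa using h1

end Vale.Agent.Lib.P058_helper23
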