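import Vale.Agent.Lib.P058_helper23.Table

/-!
# Rational models: four rearrangements of one vector with a prescribed affine dependency
-/

open scoped BigOperators

namespace Vale.Agent.Lib.P058_helper23

lemma card_fiber {I : Type*} [Fintype I] [DecidableEq I] (w : I → ℕ) (x : I → ℤ) (v : ℤ) :
    Fintype.card {ω : Σ i : I, Fin (w i) // x ω.1 = v} = ∑ i, (if x i = v then w i else 0) := by
  classical
  rw [Fintype.card_subtype, Finset.card_filter, Fintype.sum_sigma]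
  refine Finset.sum_congr rfl (fun i _ => ?_)
  by_cases h : x i = v <;> simp [h]

lemma exists_perm_of_fiber_sums {I : Type*} [Fintype I] [DecidableEq I] (w : I → ℕ) (x y : I → ℤ)
    (h : ∀ v : ℤ, ∑ i, (if x i = v then w i else 0) = ∑ i, (if y i = v then w i else 0)) :
    ∃ σ : Equiv.Perm (Σ i : I, Fin (w i)), ∀ ω, y (σ ω).1 = x ω.1 := by
  classical
  have he : ∀ v : ℤ, {ω : Σ i : I, Fin (w i) // x ω.1 = v} ≃ {ω : Σ i : I, Fin (w i) // y ω.1 = v} := by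
    intro v
    apply Fintype.equivOfCardEq
    rw [card_fiber, card_fiber, h]
  let f : (Σ i : I, Fin (w i)) → ℤ := fun ω => x ω.1
  let g : (Σ i : I, Fin (w i)) → ℤ := fun ω => y ω.1
  refine ⟨Equiv.ofFiberEquiv (f := f) (g := g) he, fun ω => ?_⟩
  exact Equiv.ofFiberEquiv_map (f := f) (g := g) he ω

/-- Models with integer entries: `X 0,...,X 3` are rearrangements of one another, they satisfy the
linear relation, and the diagonals correlate at least at level `r`. -/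
theorem model_of_params (a b c d m n L : ℕ) (ha : 0 < a) (hb : 0 < b) (hc : 0 < c) (hd : 0 < d)
    (hm : 0 < m) (hn : 0 < n)
    (hs : a + b = c + d) (hfh : (a * m) * (b * m) ≤ (c * n) * (d * n))
    (hBL : 3 * (a * m + b * m + c * n + d * n) < L) :
    ∃ (Ω : Type) (_ : Fintype Ω) (_ : DecidableEq Ω) (X : Fin 4 → Ω → ℤ),
      (∀ ω, (a : ℤ) * X 0 ω + b * X 2 ω = c * X 1 ω + d * X 3 ω) ∧
      (∀ k, ∃ σ : Equiv.Perm Ω, ∀ ω, X k (σ ω) = X 0 ω) ∧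
      0 < ∑ ω, (X 0 ω - X 2 ω) * (X 1 ω - X 3 ω) ∧
      ∑ ω, (X 0 ω - X 2 ω) * (X 0 ω - X 2 ω) ≤
        ((a : ℤ) * m + b * m) ^ 2 * (2 * (((c : ℤ) * n) * (d * n)) *
          ((L : ℤ) + ((a : ℤ) * m + b * m + c * n + d * n))) ∧
      ((a : ℤ) * m + b * m) * ((c : ℤ) * n + d * n) *
        (2 * (((a : ℤ) * m) * (b * m)) * ((L : ℤ) - 3 * ((a : ℤ) * m + b * m + c * n + d * n))) ≤
        ∑ ω, (X 0 ω - X 2 ω) * (X 1 ω - X 3 ω) := by
  classical
  set α := a * m with hα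
  set β := b * m with hβ
  set γ := c * n with hγ
  set δ := d * n with hδ
  have hαpos : 0 < α := Nat.mul_pos ha hm
  have hβpos : 0 < β := Nat.mul_pos hb hm
  have hγpos : 0 < γ := Nat.mul_pos hc hn
  have hδpos : 0 < δ := Nat.mul_pos hd hn
  obtain ⟨W, h0, h2, h1, h3, hS, hN⟩ := pair_model α β γ δ L hfh (by omega)
  let I := Fin (L + α + β + γ + δ) × Fin 3 × Fin 3
  let x : Fin 4 → I → ℤ := ![
    fun idx => ((idx.1 : ℕ) : ℤ) + (β : ℤ) * lab idx.2.1,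
    fun idx => ((idx.1 : ℕ) : ℤ) + (δ : ℤ) * lab idx.2.2,
    fun idx => ((idx.1 : ℕ) : ℤ) + (-(α : ℤ)) * lab idx.2.1,
    fun idx => ((idx.1 : ℕ) : ℤ) + (-(γ : ℤ)) * lab idx.2.2]
  have hcol : ∀ k : Fin 4, ∀ v : ℤ,
      ((∑ i, (if x k i = v then W i else 0) : ℕ) : ℤ) = xi α β γ δ L v := by
    intro k v
    fin_cases k
    · exact h0 v
    · exact h1 v
    · exact h2 v
    · exact h3 v
  let Ω := Σ i : I, Fin (W i)
  have hsum : ∀ g : I → ℤ, ∑ ω : Ω, g ω.1 = ∑ i, (W i : ℤ) * g i := by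
    intro g
    rw [Fintype.sum_sigma]
    refine Finset.sum_congr rfl (fun i _ => ?_)
    simp
  have hlab : ∀ i : Fin 3, lab i * lab i = 0 ∨ lab i * lab i = 1 := by
    intro i; fin_cases i <;> simp [lab]
  have hSq : (∑ i : I, (W i : ℤ) * (lab i.2.1 * lab i.2.2)) ≤
      ∑ i : I, (W i : ℤ) * (lab i.2.1 * lab i.2.1) := by
    refine Finset.sum_le_sum (fun i _ => mul_le_mul_of_nonneg_left ?_ (Int.natCast_nonneg _))
    rcases i with ⟨k, i, j⟩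
    fin_cases i <;> fin_cases j <;> simp [lab]
  have hex : ∀ i : I, x 0 i - x 2 i = ((α : ℤ) + β) * lab i.2.1 := by
    intro i
    simp only [x, Matrix.cons_val_zero, Matrix.cons_val]
    ring
  have hex2 : ∀ i : I, x 1 i - x 3 i = ((γ : ℤ) + δ) * lab i.2.2 := by
    intro i
    simp only [x, Matrix.cons_val_one, Matrix.cons_val]
    ring
  have hcross : ∑ ω : Ω, (x 0 ω.1 - x 2 ω.1) * (x 1 ω.1 - x 3 ω.1) =
      ((α : ℤ) + β) * ((γ : ℤ) + δ) * ∑ i : I, (W i : ℤ) * (lab i.2.1 * lab i.2.2) := by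
    rw [hsum (fun i => (x 0 i - x 2 i) * (x 1 i - x 3 i)), Finset.mul_sum]
    refine Finset.sum_congr rfl (fun i _ => ?_)
    rw [hex, hex2]
    ring
  have hsq : ∑ ω : Ω, (x 0 ω.1 - x 2 ω.1) * (x 0 ω.1 - x 2 ω.1) =
      ((α : ℤ) + β) ^ 2 * ∑ i : I, (W i : ℤ) * (lab i.2.1 * lab i.2.1) := by
    rw [hsum (fun i => (x 0 i - x 2 i) * (x 0 i - x 2 i)), Finset.mul_sum]
    refine Finset.sum_congr rfl (fun i _ => ?_)
    rw [hex]
    ring
  have hcast : ((a : ℤ) * m) = (α : ℤ) ∧ ((b : ℤ) * m) = (β : ℤ) ∧ ((c : ℤ) * n) = (γ : ℤ) ∧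
      ((d : ℤ) * n) = (δ : ℤ) := by
    refine ⟨?_, ?_, ?_, ?_⟩ <;> simp [hα, hβ, hγ, hδ]
  obtain ⟨c1, c2, c3, c4⟩ := hcast
  have hSpos : 0 < 2 * ((α : ℤ) * β) * ((L : ℤ) - 3 * (α + β + γ + δ)) := by
    have h1 : (0 : ℤ) < α := by exact_mod_cast hαpos
    have h2 : (0 : ℤ) < β := by exact_mod_cast hβpos
    have h3 : (3 : ℤ) * (α + β + γ + δ) < L := by exact_mod_cast hBL
    have h4 : (0 : ℤ) < (L : ℤ) - 3 * (α + β + γ + δ) := by linarith
    positivity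
  have hαβ : (0 : ℤ) < (α : ℤ) + β := by
    have h1 : (0 : ℤ) < α := by exact_mod_cast hαpos
    have h2 : (0 : ℤ) < β := by exact_mod_cast hβpos
    linarith
  have hγδ : (0 : ℤ) < (γ : ℤ) + δ := by
    have h1 : (0 : ℤ) < γ := by exact_mod_cast hγpos
    have h2 : (0 : ℤ) < δ := by exact_mod_cast hδpos
    linarith
  refine ⟨Ω, inferInstance, inferInstance, fun k ω => x k ω.1, ?_, ?_, ?_, ?_, ?_⟩
  · rintro ⟨⟨k, i, j⟩, t⟩
    simp only [x, Matrix.cons_val_zero, Matrix.cons_val_one, Matrix.cons_val]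
    have e1 : (a : ℤ) * ((k : ℕ) + (β : ℤ) * lab i) + b * ((k : ℕ) + (-(α : ℤ)) * lab i) =
        ((a : ℤ) + b) * (k : ℕ) := by
      rw [← c1, ← c2]; ring
    have e2 : (c : ℤ) * ((k : ℕ) + (δ : ℤ) * lab j) + d * ((k : ℕ) + (-(γ : ℤ)) * lab j) =
        ((c : ℤ) + d) * (k : ℕ) := by
      rw [← c3, ← c4]; ring
    have e3 : (a : ℤ) + b = c + d := by exact_mod_cast hs
    rw [e1, e2, e3]
  · intro k
    obtain ⟨σ, hσ⟩ := exists_perm_of_fiber_sums W (x 0) (x k) (by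
      intro v
      have h1 := hcol 0 v
      have h2 := hcol k v
      exact_mod_cast h1.trans h2.symm)
    exact ⟨σ, hσ⟩
  · show 0 < ∑ ω : Ω, (x 0 ω.1 - x 2 ω.1) * (x 1 ω.1 - x 3 ω.1)
    rw [hcross]
    have : 0 < ∑ i : I, (W i : ℤ) * (lab i.2.1 * lab i.2.2) := lt_of_lt_of_le hSpos hS
    positivity
  · show ∑ ω : Ω, (x 0 ω.1 - x 2 ω.1) * (x 0 ω.1 - x 2 ω.1) ≤ _
    rw [hsq, c1, c2, c3, c4]
    exact mul_le_mul_of_nonneg_left hN (by positivity)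
  · show _ ≤ ∑ ω : Ω, (x 0 ω.1 - x 2 ω.1) * (x 1 ω.1 - x 3 ω.1)
    rw [hcross, c1, c2, c3, c4]
    exact mul_le_mul_of_nonneg_left hS (by positivity)

/-- Choice of the parameters. -/
lemma exists_params (A D r : ℝ) (hA : 0 < A) (hD : 0 < D) (hr0 : 0 ≤ r) (hr : r ^ 2 * D < A) :
    ∃ m n : ℕ, 0 < m ∧ 0 < n ∧ A * (m : ℝ) ^ 2 ≤ D * (n : ℝ) ^ 2 ∧
      r * D * (n : ℝ) < A * (m : ℝ) := by
  set κ := Real.sqrt (A / D) with hκ
  have hAD : 0 < A / D := div_pos hA hD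
  have hκpos : 0 < κ := Real.sqrt_pos.mpr hAD
  have hκ2 : κ ^ 2 = A / D := Real.sq_sqrt hAD.le
  have hrκ : r < κ := by
    apply Real.lt_sqrt_of_sq_lt
    rw [lt_div_iff₀ hD]
    exact hr
  have hgap : 0 < κ ^ 2 - r * κ := by nlinarith
  have hU : κ < κ + (κ ^ 2 - r * κ) / (r + 1) := by
    have : 0 < (κ ^ 2 - r * κ) / (r + 1) := by positivity
    linarith
  obtain ⟨q, hq1, hq2⟩ := exists_rat_btwn hU
  have hqpos : (0 : ℝ) < q := lt_trans hκpos hq1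
  have hq0 : (0 : ℚ) < q := by exact_mod_cast hqpos
  have hnum : 0 < q.num := Rat.num_pos.mpr hq0
  refine ⟨q.den, q.num.toNat, q.den_pos, by omega, ?_, ?_⟩
  · have hqq : (q : ℝ) = (q.num.toNat : ℝ) / (q.den : ℝ) := by
      have h1 : ((q.num.toNat : ℤ) : ℝ) = ((q.num : ℤ) : ℝ) := by
        rw [Int.toNat_of_nonneg hnum.le]
      have h2 : (q : ℝ) = ((q.num : ℤ) : ℝ) / (q.den : ℝ) := by
        exact_mod_cast (Rat.num_div_den q).symm
      have h3 : ((q.num.toNat : ℕ) : ℝ) = ((q.num : ℤ) : ℝ) := by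
        rw [← h1, Int.cast_natCast]
      rw [h3]
      exact h2
    have hden : (0 : ℝ) < q.den := by exact_mod_cast q.den_pos
    have hsq : A / D < (q : ℝ) ^ 2 := by
      rw [← hκ2]
      exact pow_lt_pow_left₀ hq1 hκpos.le (by norm_num)
    rw [hqq, div_pow, lt_div_iff₀ (by positivity), div_mul_eq_mul_div, div_lt_iff₀ hD] at hsq
    nlinarith
  · have hqq : (q : ℝ) = (q.num.toNat : ℝ) / (q.den : ℝ) := by
      have h1 : ((q.num.toNat : ℤ) : ℝ) = ((q.num : ℤ) : ℝ) := by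
        rw [Int.toNat_of_nonneg hnum.le]
      have h2 : (q : ℝ) = ((q.num : ℤ) : ℝ) / (q.den : ℝ) := by
        exact_mod_cast (Rat.num_div_den q).symm
      have h3 : ((q.num.toNat : ℕ) : ℝ) = ((q.num : ℤ) : ℝ) := by
        rw [← h1, Int.cast_natCast]
      rw [h3]
      exact h2
    have hden : (0 : ℝ) < q.den := by exact_mod_cast q.den_pos
    have hrq : r * (q : ℝ) < κ ^ 2 := by
      have h1 : r * (q : ℝ) ≤ r * (κ + (κ ^ 2 - r * κ) / (r + 1)) :=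
        mul_le_mul_of_nonneg_left hq2.le hr0
      have h2 : r * (κ + (κ ^ 2 - r * κ) / (r + 1)) < κ ^ 2 := by
        have hr1 : 0 < r + 1 := by linarith
        have : r * ((κ ^ 2 - r * κ) / (r + 1)) < κ ^ 2 - r * κ := by
          rw [← mul_div_assoc, div_lt_iff₀ hr1]
          nlinarith
        nlinarith
      linarith
    rw [hκ2, hqq, ← mul_div_assoc, div_lt_div_iff₀ hden hD] at hrq
    nlinarith

/-- Rational models with real correlation above any level below the maximum. -/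
theorem model_exists (a b c d : ℕ) (ha : 0 < a) (hb : 0 < b) (hc : 0 < c) (hd : 0 < d)
    (hs : a + b = c + d) (r : ℝ) (hr : r ^ 2 * ((c : ℝ) * d) < (a : ℝ) * b) :
    ∃ (Ω : Type) (_ : Fintype Ω) (_ : DecidableEq Ω) (X : Fin 4 → Ω → ℤ),
      (∀ ω, (a : ℤ) * X 0 ω + b * X 2 ω = c * X 1 ω + d * X 3 ω) ∧
      (∀ k, ∃ σ : Equiv.Perm Ω, ∀ ω, X k (σ ω) = X 0 ω) ∧
      0 < ∑ ω, (((X 0 ω : ℤ) : ℝ) - X 2 ω) * (((X 0 ω : ℤ) : ℝ) - X 2 ω) ∧
      r * ∑ ω, (((X 0 ω : ℤ) : ℝ) - X 2 ω) * (((X 0 ω : ℤ) : ℝ) - X 2 ω) ≤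
        ∑ ω, (((X 0 ω : ℤ) : ℝ) - X 2 ω) * (((X 1 ω : ℤ) : ℝ) - X 3 ω) := by
  classical
  have hapos : (0 : ℝ) < a := by exact_mod_cast ha
  have hbpos : (0 : ℝ) < b := by exact_mod_cast hb
  have hcpos : (0 : ℝ) < c := by exact_mod_cast hc
  have hdpos : (0 : ℝ) < d := by exact_mod_cast hd
  set A : ℝ := (a : ℝ) * b with hA
  set D : ℝ := (c : ℝ) * d with hD
  have hApos : 0 < A := by positivity
  have hDpos : 0 < D := by positivity
  set r0 := max r 0 with hr0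
  have hr00 : 0 ≤ r0 := le_max_right _ _
  have hrr0 : r ≤ r0 := le_max_left _ _
  have hr0' : r0 ^ 2 * D < A := by
    rcases le_total r 0 with h | h
    · rw [hr0, max_eq_right h]; simpa using hApos
    · rw [hr0, max_eq_left h]; exact hr
  obtain ⟨m, n, hm, hn, h1, h2⟩ := exists_params A D r0 hApos hDpos hr00 hr0'
  have hmR : (0 : ℝ) < m := by exact_mod_cast hm
  have hnR : (0 : ℝ) < n := by exact_mod_cast hn
  have hfh : (a * m) * (b * m) ≤ (c * n) * (d * n) := by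
    have : ((a * m * (b * m) : ℕ) : ℝ) ≤ ((c * n * (d * n) : ℕ) : ℝ) := by
      push_cast
      nlinarith
    exact_mod_cast this
  set B : ℕ := a * m + b * m + c * n + d * n with hB
  have hBR : ((B : ℕ) : ℝ) = (a : ℝ) * m + b * m + c * n + d * n := by
    rw [hB]; push_cast; ring
  set A1 : ℝ := A * m with hA1
  set A2 : ℝ := r0 * D * n with hA2
  have hA12 : A2 < A1 := h2
  have hA2nn : 0 ≤ A2 := by positivity
  obtain ⟨L0, hL0⟩ := exists_nat_ge (((B : ℝ) * (3 * A1 + A2)) / (A1 - A2))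
  set L : ℕ := L0 + 3 * B + 1 with hL
  have hLR : (L : ℝ) = L0 + 3 * B + 1 := by rw [hL]; push_cast; ring
  have hBL : 3 * (a * m + b * m + c * n + d * n) < L := by omega
  obtain ⟨Ω, i1, i2, X, hrel, hperm, hcpos', hNle, hSge⟩ :=
    model_of_params a b c d m n L ha hb hc hd hm hn hs hfh hBL
  have hBnn : (0 : ℝ) ≤ B := by positivity
  have hkey : r0 * D * n * ((L : ℝ) + B) ≤ A * m * ((L : ℝ) - 3 * B) := by
    have hd12 : 0 < A1 - A2 := by linarith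
    have h3 : (B : ℝ) * (3 * A1 + A2) ≤ (L : ℝ) * (A1 - A2) := by
      have h4 : (B : ℝ) * (3 * A1 + A2) / (A1 - A2) ≤ L := by
        rw [hLR]
        have : (0 : ℝ) ≤ (L0 : ℝ) := by positivity
        linarith
      rwa [div_le_iff₀ hd12] at h4
    change A2 * ((L : ℝ) + B) ≤ A1 * ((L : ℝ) - 3 * B)
    nlinarith
  refine ⟨Ω, i1, i2, X, hrel, hperm, ?_, ?_⟩
  all_goals
    have hN0 : (0 : ℝ) ≤ ∑ ω, (((X 0 ω : ℤ) : ℝ) - X 2 ω) * (((X 0 ω : ℤ) : ℝ) - X 2 ω) :=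
      Finset.sum_nonneg (fun ω _ => mul_self_nonneg _)
    have hcpos'' : (0 : ℝ) < ∑ ω, (((X 0 ω : ℤ) : ℝ) - X 2 ω) * (((X 1 ω : ℤ) : ℝ) - X 3 ω) := by
      exact_mod_cast hcpos'
  · by_contra hcon
    have hN1 : ∑ ω, (((X 0 ω : ℤ) : ℝ) - X 2 ω) * (((X 0 ω : ℤ) : ℝ) - X 2 ω) = 0 :=
      le_antisymm (not_lt.mp hcon) hN0
    have hz := (Finset.sum_eq_zero_iff_of_nonneg (fun ω _ => mul_self_nonneg _)).mp hN1
    have : ∑ ω, (((X 0 ω : ℤ) : ℝ) - X 2 ω) * (((X 1 ω : ℤ) : ℝ) - X 3 ω) = 0 := by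
      refine Finset.sum_eq_zero (fun ω hω => ?_)
      have := hz ω hω
      have h0 : ((X 0 ω : ℤ) : ℝ) - X 2 ω = 0 := mul_self_eq_zero.mp this
      rw [h0, zero_mul]
    linarith
  · have hNle' : ∑ ω, (((X 0 ω : ℤ) : ℝ) - X 2 ω) * (((X 0 ω : ℤ) : ℝ) - X 2 ω) ≤
        ((a : ℝ) * m + b * m) ^ 2 * (2 * (((c : ℝ) * n) * (d * n)) *
          ((L : ℝ) + ((a : ℝ) * m + b * m + c * n + d * n))) := by
      exact_mod_cast hNle
    have hSge' : ((a : ℝ) * m + b * m) * ((c : ℝ) * n + d * n) *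
        (2 * (((a : ℝ) * m) * (b * m)) * ((L : ℝ) - 3 * ((a : ℝ) * m + b * m + c * n + d * n))) ≤
        ∑ ω, (((X 0 ω : ℤ) : ℝ) - X 2 ω) * (((X 1 ω : ℤ) : ℝ) - X 3 ω) := by
      exact_mod_cast hSge
    rw [← hBR] at hNle' hSge'
    have hsR : (c : ℝ) + d = a + b := by exact_mod_cast hs.symm
    have e1 : (c : ℝ) * n + d * n = (a + b) * n := by rw [← hsR]; ring
    have e2 : (a : ℝ) * m + b * m = (a + b) * m := by ring
    rw [e1, e2] at hSge'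
    rw [e2] at hNle'
    set N1 := ∑ ω, (((X 0 ω : ℤ) : ℝ) - X 2 ω) * (((X 0 ω : ℤ) : ℝ) - X 2 ω)
    set C1 := ∑ ω, (((X 0 ω : ℤ) : ℝ) - X 2 ω) * (((X 1 ω : ℤ) : ℝ) - X 3 ω)
    have step1 : r * N1 ≤ r0 * N1 := mul_le_mul_of_nonneg_right hrr0 hN0
    have step2 : r0 * N1 ≤ r0 * (((a : ℝ) + b) * m) ^ 2 * (2 * (((c : ℝ) * n) * (d * n)) * ((L : ℝ) + B)) := by
      rw [mul_assoc]
      exact mul_le_mul_of_nonneg_left hNle' hr00
    have step3 : r0 * (((a : ℝ) + b) * m) ^ 2 * (2 * (((c : ℝ) * n) * (d * n)) * ((L : ℝ) + B)) ≤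
        ((a + b) * m) * ((a + b) * n) * (2 * (((a : ℝ) * m) * (b * m)) * ((L : ℝ) - 3 * B)) := by
      have hfac : (0 : ℝ) ≤ 2 * ((a : ℝ) + b) ^ 2 * (m : ℝ) ^ 2 * n := by positivity
      have := mul_le_mul_of_nonneg_left hkey hfac
      calc _ = 2 * ((a : ℝ) + b) ^ 2 * (m : ℝ) ^ 2 * n * (r0 * D * n * ((L : ℝ) + B)) := by
            rw [hD]; ring
        _ ≤ 2 * ((a : ℝ) + b) ^ 2 * (m : ℝ) ^ 2 * n * (A * m * ((L : ℝ) - 3 * B)) := this
        _ = _ := by rw [hA]; ring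
    linarith

end Vale.Agent.Lib.P058_helper23
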