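import Vale.Agent.Lib.P058_helper23.Core
import Vale.Agent.Lib.P058_helper23.Model

/-!
# Geometry of a quadrilateral with crossing diagonals, orbits of coordinate permutations
-/

open scoped BigOperators

namespace Vale.Agent.Lib.P058_helper23

section geom

variable {V : Type*} [NormedAddCommGroup V] [InnerProductSpace ℝ V]

lemma norm_comb (s t : ℝ) (e f : V) :
    ‖s • e + t • f‖ ^ 2 = s ^ 2 * ‖e‖ ^ 2 + t ^ 2 * ‖f‖ ^ 2 + 2 * s * t * inner ℝ e f := by
  rw [norm_add_sq_real, norm_smul, norm_smul, real_inner_smul_left, real_inner_smul_right,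
    Real.norm_eq_abs, Real.norm_eq_abs, mul_pow, mul_pow, sq_abs, sq_abs]
  ring

/-- The squared side lengths in terms of the diagonals. -/
lemma side_formula (a b c d : ℝ) (x : Fin 4 → V) (hs : a + b = c + d)
    (hrel : a • x 0 + b • x 2 = c • x 1 + d • x 3) :
    (a + b) • (x 0 - x 1) = b • (x 0 - x 2) + (-d) • (x 1 - x 3) ∧
    (a + b) • (x 0 - x 3) = b • (x 0 - x 2) + c • (x 1 - x 3) ∧
    (a + b) • (x 2 - x 1) = (-a) • (x 0 - x 2) + (-d) • (x 1 - x 3) ∧
    (a + b) • (x 2 - x 3) = (-a) • (x 0 - x 2) + c • (x 1 - x 3) := by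
  have h1 : a • x 0 = c • x 1 + d • x 3 - b • x 2 := by rw [← hrel]; abel
  refine ⟨?_, ?_, ?_, ?_⟩
  · have : (a + b) • (x 0 - x 1) - (b • (x 0 - x 2) + (-d) • (x 1 - x 3)) =
        (a • x 0 + b • x 2) - ((a + b - d) • x 1 + d • x 3) := by
      simp only [smul_sub, add_smul, sub_smul, neg_smul]; abel
    rw [← sub_eq_zero, this, hrel, show a + b - d = c by linarith, sub_self]
  · have : (a + b) • (x 0 - x 3) - (b • (x 0 - x 2) + c • (x 1 - x 3)) =
        (a • x 0 + b • x 2) - (c • x 1 + (a + b - c) • x 3) := by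
      simp only [smul_sub, add_smul, sub_smul]; abel
    rw [← sub_eq_zero, this, hrel, show a + b - c = d by linarith, sub_self]
  · have : (a + b) • (x 2 - x 1) - ((-a) • (x 0 - x 2) + (-d) • (x 1 - x 3)) =
        (a • x 0 + b • x 2) - ((a + b - d) • x 1 + d • x 3) := by
      simp only [smul_sub, add_smul, sub_smul, neg_smul]; abel
    rw [← sub_eq_zero, this, hrel, show a + b - d = c by linarith, sub_self]
  · have : (a + b) • (x 2 - x 3) - ((-a) • (x 0 - x 2) + c • (x 1 - x 3)) =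
        (a • x 0 + b • x 2) - (c • x 1 + (a + b - c) • x 3) := by
      simp only [smul_sub, add_smul, sub_smul, neg_smul]; abel
    rw [← sub_eq_zero, this, hrel, show a + b - c = d by linarith, sub_self]

/-- Power of the crossing point of the diagonals. -/
lemma power_point (a b c d : ℝ) (x : Fin 4 → V) (z : V) (R : ℝ) (hs : a + b = c + d)
    (hrel : a • x 0 + b • x 2 = c • x 1 + d • x 3) (hR : ∀ i, ‖x i - z‖ = R) :
    a * b * ‖x 0 - x 2‖ ^ 2 = c * d * ‖x 1 - x 3‖ ^ 2 := by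
  have h1 : a • (x 0 - z) + b • (x 2 - z) = c • (x 1 - z) + d • (x 3 - z) := by
    have : a • (x 0 - z) + b • (x 2 - z) = (a • x 0 + b • x 2) - (a + b) • z := by
      simp only [smul_sub, add_smul]; abel
    rw [this, hrel, hs]
    simp only [smul_sub, add_smul]; abel
  have h2 := norm_comb a b (x 0 - z) (x 2 - z)
  have h3 := norm_comb c d (x 1 - z) (x 3 - z)
  rw [h1, h3, hR, hR] at h2
  have h4 : x 0 - x 2 = (x 0 - z) - (x 2 - z) := by abel
  have h5 : x 1 - x 3 = (x 1 - z) - (x 3 - z) := by abel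
  have h6 := norm_sub_sq_real (x 0 - z) (x 2 - z)
  have h7 := norm_sub_sq_real (x 1 - z) (x 3 - z)
  rw [← h4, hR, hR] at h6
  rw [← h5, hR, hR] at h7
  rw [hR, hR] at h2
  have h8 : c ^ 2 + d ^ 2 + 2 * c * d = a ^ 2 + b ^ 2 + 2 * a * b := by
    have : (c + d) ^ 2 = (a + b) ^ 2 := by rw [hs]
    nlinarith
  rw [h6, h7]
  nlinarith [h2, h8]

/-- Two quadrilaterals with the same relation and the same diagonal data are congruent. -/
lemma dist_eq_of_invariants {V' : Type*} [NormedAddCommGroup V'] [InnerProductSpace ℝ V']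
    (a b c d : ℝ) (hab : 0 < a + b) (hs : a + b = c + d) (x : Fin 4 → V) (x' : Fin 4 → V')
    (hrel : a • x 0 + b • x 2 = c • x 1 + d • x 3)
    (hrel' : a • x' 0 + b • x' 2 = c • x' 1 + d • x' 3)
    (h1 : ‖x 0 - x 2‖ ^ 2 = ‖x' 0 - x' 2‖ ^ 2) (h2 : ‖x 1 - x 3‖ ^ 2 = ‖x' 1 - x' 3‖ ^ 2)
    (h3 : inner ℝ (x 0 - x 2) (x 1 - x 3) = inner ℝ (x' 0 - x' 2) (x' 1 - x' 3)) :
    ∀ i j, dist (x i) (x j) = dist (x' i) (x' j) := by
  obtain ⟨f1, f2, f3, f4⟩ := side_formula a b c d x hs hrel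
  obtain ⟨g1, g2, g3, g4⟩ := side_formula a b c d x' hs hrel'
  have key : ∀ (u v : V) (u' v' : V') (s t : ℝ),
      (a + b) • (u - v) = s • (x 0 - x 2) + t • (x 1 - x 3) →
      (a + b) • (u' - v') = s • (x' 0 - x' 2) + t • (x' 1 - x' 3) → dist u v = dist u' v' := by
    intro u v u' v' s t hu hu'
    have e1 : ‖(a + b) • (u - v)‖ ^ 2 = ‖(a + b) • (u' - v')‖ ^ 2 := by
      rw [hu, hu', norm_comb, norm_comb, h1, h2, h3]
    rw [norm_smul, norm_smul, mul_pow, mul_pow] at e1
    have e2 : ‖a + b‖ ^ 2 ≠ 0 := by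
      have : ‖a + b‖ ≠ 0 := norm_ne_zero_iff.mpr hab.ne'
      positivity
    have e3 := mul_left_cancel₀ e2 e1
    rw [dist_eq_norm, dist_eq_norm]
    exact (pow_left_inj₀ (norm_nonneg _) (norm_nonneg _) (by norm_num)).mp e3
  have d02 : dist (x 0) (x 2) = dist (x' 0) (x' 2) := by
    rw [dist_eq_norm, dist_eq_norm]
    exact (pow_left_inj₀ (norm_nonneg _) (norm_nonneg _) (by norm_num)).mp h1
  have d13 : dist (x 1) (x 3) = dist (x' 1) (x' 3) := by
    rw [dist_eq_norm, dist_eq_norm]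
    exact (pow_left_inj₀ (norm_nonneg _) (norm_nonneg _) (by norm_num)).mp h2
  have d01 := key _ _ _ _ _ _ f1 g1
  have d03 := key _ _ _ _ _ _ f2 g2
  have d21 := key _ _ _ _ _ _ f3 g3
  have d23 := key _ _ _ _ _ _ f4 g4
  intro i j
  fin_cases i <;> fin_cases j <;>
    first
    | (simp only [Fin.zero_eta, Fin.mk_one, Fin.reduceFinMk, dist_self]; done)
    | (simp only [Fin.zero_eta, Fin.mk_one, Fin.reduceFinMk]
       first
       | assumption
       | (rw [dist_comm, dist_comm (x' _)]; assumption))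

/-- Strict Cauchy-Schwarz for the diagonals of four distinct points of a sphere. -/
lemma strict_cs (a b c d : ℝ) (ha : 0 < a) (hb : 0 < b) (hs : a + b = c + d)
    (hc : 0 < c) (hd : 0 < d) (x : Fin 4 → V) (z : V) (R : ℝ)
    (hrel : a • x 0 + b • x 2 = c • x 1 + d • x 3) (hR : ∀ i, ‖x i - z‖ = R)
    (hinj : Function.Injective x) :
    inner ℝ (x 0 - x 2) (x 1 - x 3) ^ 2 < ‖x 0 - x 2‖ ^ 2 * ‖x 1 - x 3‖ ^ 2 := by
  by_contra hcon
  have hcs := real_inner_mul_inner_self_le (x 0 - x 2) (x 1 - x 3)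
  rw [real_inner_self_eq_norm_sq, real_inner_self_eq_norm_sq] at hcs
  set E := x 0 - x 2 with hE
  set F := x 1 - x 3 with hF
  set C := inner ℝ E F with hC
  have heq : C ^ 2 = ‖E‖ ^ 2 * ‖F‖ ^ 2 := le_antisymm (by nlinarith) (not_lt.mp hcon)
  have hEne : E ≠ 0 := by
    intro h
    have : x 0 = x 2 := sub_eq_zero.mp h
    exact absurd (hinj this) (by decide)
  have hE2 : 0 < ‖E‖ ^ 2 := by positivity
  -- `F` is a multiple of `E`
  have hpar : ‖E‖ ^ 2 • F = C • E := by
    have : ‖(‖E‖ ^ 2) • F - C • E‖ ^ 2 = 0 := by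
      rw [norm_sub_sq_real, norm_smul, norm_smul, real_inner_smul_left, real_inner_smul_right,
        real_inner_comm, ← hC, Real.norm_eq_abs, Real.norm_eq_abs, mul_pow, mul_pow, sq_abs, sq_abs]
      linear_combination (-‖E‖ ^ 2) * heq
    have h0 : ‖(‖E‖ ^ 2) • F - C • E‖ = 0 := by simpa using this
    exact sub_eq_zero.mp (norm_eq_zero.mp h0)
  set κ := C / ‖E‖ ^ 2 with hκ
  have hFκ : F = κ • E := by
    rw [hκ, div_eq_inv_mul, mul_smul, ← hpar, smul_smul, inv_mul_cancel₀ hE2.ne', one_smul]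
  -- three collinear points on a sphere
  obtain ⟨f1, f2, f3, f4⟩ := side_formula a b c d x hs hrel
  have hab : 0 < a + b := by linarith
  have hcol : Collinear ℝ ({x 0, x 1, x 2} : Set V) := by
    rw [collinear_iff_of_mem (p₀ := x 0) (by simp)]
    refine ⟨E, ?_⟩
    intro p hp
    simp only [Set.mem_insert_iff, Set.mem_singleton_iff] at hp
    rcases hp with rfl | rfl | rfl
    · exact ⟨0, by simp⟩
    · refine ⟨-(b + (-d) * κ) / (a + b), ?_⟩
      have h : (a + b) • (x 0 - x 1) = (b + (-d) * κ) • E := by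
        rw [f1, ← hF, hFκ, smul_smul, add_smul]
      have h2 : x 0 - x 1 = ((b + (-d) * κ) / (a + b)) • E := by
        rw [div_eq_inv_mul, mul_smul, ← h, smul_smul, inv_mul_cancel₀ hab.ne', one_smul]
      simp only [vadd_eq_add]
      rw [neg_div, neg_smul, ← h2]
      abel
    · refine ⟨-1, ?_⟩
      simp only [vadd_eq_add, hE]
      simp
  have hsph : EuclideanGeometry.Cospherical ({x 0, x 1, x 2} : Set V) := by
    refine ⟨z, R, ?_⟩
    intro p hp
    simp only [Set.mem_insert_iff, Set.mem_singleton_iff] at hp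
    rcases hp with rfl | rfl | rfl <;> rw [dist_eq_norm] <;> exact hR _
  have h01 : x 0 ≠ x 1 := fun h => absurd (hinj h) (by decide)
  have h02 : x 0 ≠ x 2 := fun h => absurd (hinj h) (by decide)
  have h12 : x 1 ≠ x 2 := fun h => absurd (hinj h) (by decide)
  have hind := hsph.affineIndependent_of_ne h01 h02 h12
  rw [affineIndependent_iff_not_collinear_set] at hind
  exact hind hcol

end geom

/-- The orbit of a vector under the permutations of the coordinates. -/
noncomputable def orbitSet {N : ℕ} (v : Fin N → ℝ) : Finset (E N) :=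
  Finset.univ.image (fun σ : Equiv.Perm (Fin N) => (WithLp.toLp 2 (v ∘ σ) : E N))

lemma mem_orbitSet {N : ℕ} (v : Fin N → ℝ) (σ : Equiv.Perm (Fin N)) :
    (WithLp.toLp 2 (v ∘ σ) : E N) ∈ orbitSet v :=
  Finset.mem_image.mpr ⟨σ, Finset.mem_univ _, rfl⟩

/-- Orbits of coordinate permutations are transitive sets. -/
lemma orbit_transitive {N : ℕ} (v : Fin N → ℝ) : IsTransitive (orbitSet v) := by
  classical
  intro y hy y' hy'
  obtain ⟨σ, -, rfl⟩ := Finset.mem_image.mp hy
  obtain ⟨σ', -, rfl⟩ := Finset.mem_image.mp hy'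
  -- the coordinate permutation taking one to the other
  let τ : Equiv.Perm (Fin N) := (σ'.trans σ.symm).symm
  let g : E N ≃ᵢ E N := (LinearIsometryEquiv.piLpCongrLeft 2 ℝ ℝ τ).toIsometryEquiv
  have hg : ∀ ρ : Equiv.Perm (Fin N), g (WithLp.toLp 2 (v ∘ ρ)) = WithLp.toLp 2 (v ∘ (τ.symm.trans ρ)) := by
    intro ρ
    ext i
    simp [g, LinearIsometryEquiv.piLpCongrLeft_apply]
  refine ⟨g, ?_, ?_⟩
  · ext u
    constructor
    · rintro ⟨w, hw, rfl⟩
      obtain ⟨ρ, -, rfl⟩ := Finset.mem_image.mp (Finset.mem_coe.mp hw)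
      rw [hg]
      exact Finset.mem_coe.mpr (mem_orbitSet v _)
    · intro hu
      obtain ⟨ρ, -, rfl⟩ := Finset.mem_image.mp (Finset.mem_coe.mp hu)
      refine ⟨WithLp.toLp 2 (v ∘ (τ.trans ρ)), Finset.mem_coe.mpr (mem_orbitSet v _), ?_⟩
      rw [hg]
      congr 2
      ext i
      simp
  · rw [hg]
    congr 2
    ext i
    simp [τ]

end Vale.Agent.Lib.P058_helper23
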