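import Vale.Agent.Lib.P058_helper23.Geom

/-!
# Every cyclic quadrilateral with rational diagonal ratios is subtransitive
-/

open scoped BigOperators

namespace Vale.Agent.Lib.P058_helper23

lemma exists_weights (n np nm A B : ℝ) (hn : 0 < n) (hnp : 0 < np) (hnm : 0 < nm)
    (hA : 0 ≤ A) (hB : 0 ≤ B) :
    ∃ yp ym : ℝ, 0 ≤ yp ∧ 0 ≤ ym ∧ yp * np + ym * nm = n ∧ yp * A = ym * B := by
  rcases hA.eq_or_lt with hA0 | hApos
  · refine ⟨n / np, 0, by positivity, le_rfl, ?_, ?_⟩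
    · field_simp
      ring
    · rw [← hA0]; ring
  · have hden : 0 < B * np + A * nm := by positivity
    refine ⟨B * (n / (B * np + A * nm)), A * (n / (B * np + A * nm)), by positivity, by positivity,
      ?_, ?_⟩
    · field_simp
    · ring

lemma subtransitive_of_vectors {D N : ℕ} (p : Fin 4 → E D) (hinj : Function.Injective p)
    (v : Fin N → ℝ) (U : Fin 4 → E N) (hU : ∀ k, U k ∈ orbitSet v)
    (hd : ∀ i j, dist (U i) (U j) = dist (p i) (p j)) : IsSubtransitive (Set.range p) := by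
  classical
  refine ⟨Set.finite_range p, N, orbitSet v, orbit_transitive v, ?_⟩
  let f : E D → E N := fun x => if h : ∃ i, p i = x then U h.choose else 0
  have hf : ∀ i, f (p i) = U i := by
    intro i
    have h : ∃ j, p j = p i := ⟨i, rfl⟩
    simp only [f, dif_pos h]
    rw [hinj h.choose_spec]
  refine ⟨f, ?_, ?_⟩
  · rintro _ ⟨i, rfl⟩
    rw [hf]
    exact hU i
  · rintro _ ⟨i, rfl⟩ _ ⟨j, rfl⟩
    rw [hf, hf]
    exact hd i j

lemma inner_toLp {N : ℕ} (f g : Fin N → ℝ) :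
    inner ℝ (WithLp.toLp 2 f : E N) (WithLp.toLp 2 g : E N) = ∑ i, f i * g i := by
  simp [PiLp.inner_apply, mul_comm]

lemma norm_sq_toLp {N : ℕ} (f : Fin N → ℝ) :
    ‖(WithLp.toLp 2 f : E N)‖ ^ 2 = ∑ i, f i * f i := by
  rw [← real_inner_self_eq_norm_sq, inner_toLp]

/-- **Every cyclic quadrilateral whose diagonals cut each other in rational ratios is
subtransitive.**  Here `a p₀ + b p₂ = c p₁ + d p₃` with `a + b = c + d` says that the diagonals
`p₀p₂` and `p₁p₃` cross at a point dividing them in the ratios `b : a` and `d : c`. -/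
theorem rational_quadrilateral_subtransitive {D : ℕ} (p : Fin 4 → E D) (a b c d : ℕ)
    (ha : 0 < a) (hb : 0 < b) (hc : 0 < c) (hd : 0 < d) (hs : a + b = c + d)
    (hrel : (a : ℝ) • p 0 + (b : ℝ) • p 2 = (c : ℝ) • p 1 + (d : ℝ) • p 3)
    (hsph : ∃ (z : E D) (R : ℝ), ∀ i, dist (p i) z = R)
    (hinj : Function.Injective p) : IsSubtransitive (Set.range p) := by
  classical
  obtain ⟨z, R, hzR⟩ := hsph
  have hR : ∀ i, ‖p i - z‖ = R := fun i => by rw [← dist_eq_norm]; exact hzR i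
  have hapos : (0 : ℝ) < a := by exact_mod_cast ha
  have hbpos : (0 : ℝ) < b := by exact_mod_cast hb
  have hcpos : (0 : ℝ) < c := by exact_mod_cast hc
  have hdpos : (0 : ℝ) < d := by exact_mod_cast hd
  have hsR : (a : ℝ) + b = c + d := by exact_mod_cast hs
  have hpow := power_point (a : ℝ) b c d p z R hsR hrel hR
  have hcs := strict_cs (a : ℝ) b c d hapos hbpos hsR hcpos hdpos p z R hrel hR hinj
  set n1 := ‖p 0 - p 2‖ ^ 2 with hn1
  set n2 := ‖p 1 - p 3‖ ^ 2 with hn2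
  set Cst := inner ℝ (p 0 - p 2) (p 1 - p 3) with hCst
  have hn1pos : 0 < n1 := by
    have : p 0 - p 2 ≠ 0 := fun h => absurd (hinj (sub_eq_zero.mp h)) (by decide)
    positivity
  set r := Cst / n1 with hr
  have hCr : Cst = r * n1 := by rw [hr]; field_simp
  have hr2 : r ^ 2 * ((c : ℝ) * d) < (a : ℝ) * b := by
    have h1 : r ^ 2 * n1 < n2 := by
      have : r ^ 2 * n1 * n1 < n2 * n1 := by
        calc r ^ 2 * n1 * n1 = Cst ^ 2 := by rw [hCr]; ring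
          _ < n1 * n2 := hcs
          _ = n2 * n1 := by ring
      exact lt_of_mul_lt_mul_right this hn1pos.le
    have hcd : 0 < (c : ℝ) * d := by positivity
    have h2 : r ^ 2 * ((c : ℝ) * d) * n1 < (a : ℝ) * b * n1 := by
      calc r ^ 2 * ((c : ℝ) * d) * n1 = (c : ℝ) * d * (r ^ 2 * n1) := by ring
        _ < (c : ℝ) * d * n2 := mul_lt_mul_of_pos_left h1 hcd
        _ = (a : ℝ) * b * n1 := hpow.symm
    exact lt_of_mul_lt_mul_right h2 hn1pos.le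
  have hr2' : (-r) ^ 2 * ((d : ℝ) * c) < (a : ℝ) * b := by
    have : (-r) ^ 2 * ((d : ℝ) * c) = r ^ 2 * ((c : ℝ) * d) := by ring
    rw [this]; exact hr2
  obtain ⟨Ωp, ip1, ip2, Xp, relp, permp, posp, lep⟩ :=
    model_exists a b c d ha hb hc hd hs r hr2
  obtain ⟨Ωm, im1, im2, Xm, relm, permm, posm, lem⟩ :=
    model_exists a b d c ha hb hd hc (by omega) (-r) hr2'
  set np := ∑ ω, (((Xp 0 ω : ℤ) : ℝ) - Xp 2 ω) * (((Xp 0 ω : ℤ) : ℝ) - Xp 2 ω) with hnp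
  set cp := ∑ ω, (((Xp 0 ω : ℤ) : ℝ) - Xp 2 ω) * (((Xp 1 ω : ℤ) : ℝ) - Xp 3 ω) with hcp
  set nm := ∑ ω, (((Xm 0 ω : ℤ) : ℝ) - Xm 2 ω) * (((Xm 0 ω : ℤ) : ℝ) - Xm 2 ω) with hnm
  set cm := ∑ ω, (((Xm 0 ω : ℤ) : ℝ) - Xm 2 ω) * (((Xm 1 ω : ℤ) : ℝ) - Xm 3 ω) with hcm
  obtain ⟨yp, ym, hyp, hym, hy1, hy2⟩ :=
    exists_weights n1 np nm (cp - r * np) (r * nm + cm) hn1pos posp posm
      (by linarith) (by linarith)
  set sp := Real.sqrt yp with hsp
  set sm := Real.sqrt ym with hsm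
  have hsp2 : sp * sp = yp := Real.mul_self_sqrt hyp
  have hsm2 : sm * sm = ym := Real.mul_self_sqrt hym
  -- the swap of the two last labels in the second model
  let sw : Fin 4 → Fin 4 := ![0, 3, 2, 1]
  let Ω := Ωp ⊕ Ωm
  let u : Fin 4 → Ω → ℝ := fun k =>
    Sum.elim (fun ω => sp * (Xp k ω : ℝ)) (fun ω => sm * (Xm (sw k) ω : ℝ))
  have hperm : ∀ k, ∃ σ : Equiv.Perm Ω, ∀ w, u k (σ w) = u 0 w := by
    intro k
    obtain ⟨σ1, h1⟩ := permp k
    obtain ⟨σ2, h2⟩ := permm (sw k)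
    refine ⟨Equiv.sumCongr σ1 σ2, ?_⟩
    rintro (ω | ω)
    · show sp * (Xp k (σ1 ω) : ℝ) = sp * (Xp 0 ω : ℝ)
      rw [h1 ω]
    · show sm * (Xm (sw k) (σ2 ω) : ℝ) = sm * (Xm 0 ω : ℝ)
      rw [h2 ω]
  have hrelu : ∀ w, (a : ℝ) * u 0 w + b * u 2 w = c * u 1 w + d * u 3 w := by
    rintro (ω | ω)
    · have := relp ω
      have h : (a : ℝ) * (Xp 0 ω : ℝ) + b * (Xp 2 ω : ℝ) = c * (Xp 1 ω : ℝ) + d * (Xp 3 ω : ℝ) := by
        exact_mod_cast this
      show (a : ℝ) * (sp * (Xp 0 ω : ℝ)) + b * (sp * (Xp 2 ω : ℝ)) =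
        c * (sp * (Xp 1 ω : ℝ)) + d * (sp * (Xp 3 ω : ℝ))
      linear_combination sp * h
    · have := relm ω
      have h : (a : ℝ) * (Xm 0 ω : ℝ) + b * (Xm 2 ω : ℝ) = d * (Xm 1 ω : ℝ) + c * (Xm 3 ω : ℝ) := by
        exact_mod_cast this
      show (a : ℝ) * (sm * (Xm 0 ω : ℝ)) + b * (sm * (Xm 2 ω : ℝ)) =
        c * (sm * (Xm 3 ω : ℝ)) + d * (sm * (Xm 1 ω : ℝ))
      linear_combination sm * h
  have hn : ∑ w, (u 0 w - u 2 w) * (u 0 w - u 2 w) = n1 := by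
    rw [Fintype.sum_sum_type, ← hy1]
    congr 1
    · rw [hnp, Finset.mul_sum, ← hsp2]
      refine Finset.sum_congr rfl (fun ω _ => ?_)
      show (sp * (Xp 0 ω : ℝ) - sp * (Xp 2 ω : ℝ)) * (sp * (Xp 0 ω : ℝ) - sp * (Xp 2 ω : ℝ)) = _
      ring
    · rw [hnm, Finset.mul_sum, ← hsm2]
      refine Finset.sum_congr rfl (fun ω _ => ?_)
      show (sm * (Xm 0 ω : ℝ) - sm * (Xm 2 ω : ℝ)) * (sm * (Xm 0 ω : ℝ) - sm * (Xm 2 ω : ℝ)) = _
      ring
  have hC : ∑ w, (u 0 w - u 2 w) * (u 1 w - u 3 w) = Cst := by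
    rw [Fintype.sum_sum_type]
    have e1 : ∑ ω : Ωp, (sp * (Xp 0 ω : ℝ) - sp * (Xp 2 ω : ℝ)) * (sp * (Xp 1 ω : ℝ) - sp * (Xp 3 ω : ℝ))
        = yp * cp := by
      rw [hcp, Finset.mul_sum, ← hsp2]
      refine Finset.sum_congr rfl (fun ω _ => ?_)
      ring
    have e2 : ∑ ω : Ωm, (sm * (Xm (sw 0) ω : ℝ) - sm * (Xm (sw 2) ω : ℝ)) *
        (sm * (Xm (sw 1) ω : ℝ) - sm * (Xm (sw 3) ω : ℝ)) = -(ym * cm) := by
      rw [hcm, Finset.mul_sum, ← hsm2, ← Finset.sum_neg_distrib]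
      refine Finset.sum_congr rfl (fun ω _ => ?_)
      show (sm * (Xm 0 ω : ℝ) - sm * (Xm 2 ω : ℝ)) * (sm * (Xm 3 ω : ℝ) - sm * (Xm 1 ω : ℝ)) = _
      ring
    have e1' : ∑ x : Ωp, (u 0 (Sum.inl x) - u 2 (Sum.inl x)) * (u 1 (Sum.inl x) - u 3 (Sum.inl x))
        = yp * cp := e1
    have e2' : ∑ x : Ωm, (u 0 (Sum.inr x) - u 2 (Sum.inr x)) * (u 1 (Sum.inr x) - u 3 (Sum.inr x))
        = -(ym * cm) := e2
    rw [e1', e2', hCr, ← hy1]
    linear_combination hy2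
  -- to coordinates
  let N := Fintype.card Ω
  let e : Ω ≃ Fin N := Fintype.equivFin Ω
  let U : Fin 4 → E N := fun k => WithLp.toLp 2 (u k ∘ e.symm)
  let v : Fin N → ℝ := u 0 ∘ e.symm
  have hUmem : ∀ k, U k ∈ orbitSet v := by
    intro k
    obtain ⟨σ, hσ⟩ := hperm k
    have : u k ∘ e.symm = v ∘ (e.symm.trans (σ.symm.trans e)) := by
      funext i
      simp only [Function.comp, v, Equiv.trans_apply, Equiv.symm_apply_apply]
      have := hσ (σ.symm (e.symm i))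
      rw [Equiv.apply_symm_apply] at this
      exact this
    simp only [U]
    rw [this]
    exact mem_orbitSet v _
  have hsum : ∀ f : Ω → ℝ, ∑ i : Fin N, f (e.symm i) = ∑ w, f w := fun f =>
    Equiv.sum_comp e.symm f
  have hUsub : ∀ i j, U i - U j = WithLp.toLp 2 (fun t => u i (e.symm t) - u j (e.symm t)) := by
    intro i j
    rfl
  have hUn1 : ‖U 0 - U 2‖ ^ 2 = n1 := by
    rw [hUsub, norm_sq_toLp, ← hn, hsum (fun w => (u 0 w - u 2 w) * (u 0 w - u 2 w))]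
  have hUC : inner ℝ (U 0 - U 2) (U 1 - U 3) = Cst := by
    rw [hUsub, hUsub, inner_toLp, ← hC, hsum (fun w => (u 0 w - u 2 w) * (u 1 w - u 3 w))]
  have hUrel : (a : ℝ) • U 0 + (b : ℝ) • U 2 = (c : ℝ) • U 1 + (d : ℝ) • U 3 := by
    ext t
    simp only [U, PiLp.add_apply, PiLp.smul_apply, smul_eq_mul, Function.comp]
    exact hrelu _
  have hUnorm : ∀ k, ‖U k - 0‖ = ‖U 0‖ := by
    intro k
    rw [sub_zero]
    apply (pow_left_inj₀ (norm_nonneg _) (norm_nonneg _) (two_ne_zero)).mp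
    simp only [U]
    rw [norm_sq_toLp, norm_sq_toLp]
    obtain ⟨σ, hσ⟩ := hperm k
    simp only [Function.comp]
    rw [hsum (fun w => u k w * u k w), hsum (fun w => u 0 w * u 0 w), ← Equiv.sum_comp σ]
    refine Finset.sum_congr rfl (fun w _ => ?_)
    rw [hσ]
  have hUpow := power_point (a : ℝ) b c d U 0 ‖U 0‖ hsR hUrel hUnorm
  have hUn2 : ‖U 1 - U 3‖ ^ 2 = n2 := by
    have hcd : (c : ℝ) * d ≠ 0 := by positivity
    apply mul_left_cancel₀ hcd
    rw [← hUpow, hUn1, hpow]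
  have hdist := dist_eq_of_invariants (a : ℝ) b c d (by positivity) hsR U p hUrel hrel
    hUn1 hUn2 hUC
  exact subtransitive_of_vectors p hinj v U hUmem hdist

end Vale.Agent.Lib.P058_helper23
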