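import Vale.Agent.Lib.P058_helper23.Block

/-!
# The weighted table behind the rational models
-/

open scoped BigOperators

namespace Vale.Agent.Lib.P058_helper23

/-- integer labels of the three kinds of rows -/
def lab : Fin 3 → ℤ := ![1, 0, -1]

@[simp] lemma lab_zero : lab 0 = 1 := rfl
@[simp] lemma lab_one : lab 1 = 0 := rfl
@[simp] lemma lab_two : lab 2 = -1 := rfl

lemma sum_shift (g : ℤ → ℕ) (N : ℕ) (hg : ∀ k : ℤ, ¬ (0 ≤ k ∧ k < N) → g k = 0) (c v : ℤ) :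
    ∑ k : Fin N, (if ((k : ℕ) : ℤ) + c = v then g ((k : ℕ) : ℤ) else 0) = g (v - c) := by
  by_cases h : 0 ≤ v - c ∧ v - c < N
  · have hlt : (v - c).toNat < N := by omega
    rw [Finset.sum_eq_single (⟨(v - c).toNat, hlt⟩ : Fin N)]
    · have e : (((⟨(v - c).toNat, hlt⟩ : Fin N) : ℕ) : ℤ) = v - c := by
        simp only []
        omega
      rw [e, if_pos (by ring)]
    · intro b _ hb
      rw [if_neg]
      intro hc
      apply hb
      apply Fin.ext
      simp only []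
      omega
    · intro hb
      exact absurd (Finset.mem_univ _) hb
  · rw [hg _ h]
    refine Finset.sum_eq_zero (fun k _ => ?_)
    rw [if_neg]
    intro hc
    apply h
    have := k.isLt
    omega

section margins

variable (α β γ δ L : ℕ)

/-- common law of the four columns -/
def xi (k : ℤ) : ℤ := if 0 ≤ k ∧ k < ((L + α + β + γ + δ : ℕ) : ℤ) then 2 * ((γ : ℤ) * δ) else 0

/-- shifted double block count -/
def sc (x y s L : ℕ) (k : ℤ) : ℕ := (C x y L (k - s)).toNat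

/-- number of loop rows of the first pair structure at level `k` -/
def x0 (k : ℤ) : ℕ := (xi α β γ δ L k - C γ δ L k - C γ δ L (k - α - β)).toNat
/-- number of loop rows of the second pair structure at level `k` -/
def y0 (k : ℤ) : ℕ := (xi α β γ δ L k - C α β L k - C α β L (k - γ - δ)).toNat

lemma sc_cast (x y s L : ℕ) (k : ℤ) : (sc x y s L k : ℤ) = C x y L (k - s) := by
  unfold sc; exact Int.toNat_of_nonneg (C_nonneg _ _ _ _)

lemma x0_cast (k : ℤ) :
    (x0 α β γ δ L k : ℤ) = xi α β γ δ L k - C γ δ L k - C γ δ L (k - α - β) := by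
  unfold x0
  apply Int.toNat_of_nonneg
  unfold xi
  have h1 := C_nonneg γ δ L k
  have h2 := C_nonneg γ δ L (k - α - β)
  have h3 := C_le γ δ L k
  have h4 := C_le γ δ L (k - α - β)
  split_ifs with h
  · linarith
  · have h5 : C γ δ L k = 0 := by
      by_cases hk : k < 0
      · exact C_eq_zero_of_neg _ _ _ _ hk
      · apply C_eq_zero_of_large
        push_cast at h
        omega
    have h6 : C γ δ L (k - α - β) = 0 := by
      by_cases hk : k < 0
      · exact C_eq_zero_of_neg _ _ _ _ (by omega)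
      · apply C_eq_zero_of_large
        push_cast at h
        omega
    rw [h5, h6]
    norm_num

lemma y0_cast (hfh : α * β ≤ γ * δ) (k : ℤ) :
    (y0 α β γ δ L k : ℤ) = xi α β γ δ L k - C α β L k - C α β L (k - γ - δ) := by
  unfold y0
  apply Int.toNat_of_nonneg
  unfold xi
  have h1 := C_nonneg α β L k
  have h2 := C_nonneg α β L (k - γ - δ)
  have h3 := C_le α β L k
  have h4 := C_le α β L (k - γ - δ)
  have h7 : ((α : ℤ) * β) ≤ (γ : ℤ) * δ := by exact_mod_cast hfh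
  split_ifs with h
  · linarith
  · have h5 : C α β L k = 0 := by
      by_cases hk : k < 0
      · exact C_eq_zero_of_neg _ _ _ _ hk
      · apply C_eq_zero_of_large
        push_cast at h
        omega
    have h6 : C α β L (k - γ - δ) = 0 := by
      by_cases hk : k < 0
      · exact C_eq_zero_of_neg _ _ _ _ (by omega)
      · apply C_eq_zero_of_large
        push_cast at h
        omega
    rw [h5, h6]
    norm_num

lemma margins_eq (hfh : α * β ≤ γ * δ) (k : ℤ) :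
    sc γ δ α L k + x0 α β γ δ L k + sc γ δ β L k =
      sc α β γ L k + y0 α β γ δ L k + sc α β δ L k := by
  have h := four_term α β γ δ L k
  have e1 := sc_cast γ δ α L k
  have e2 := sc_cast γ δ β L k
  have e3 := sc_cast α β γ L k
  have e4 := sc_cast α β δ L k
  have e5 := x0_cast α β γ δ L k
  have e6 := y0_cast α β γ δ L hfh k
  simp only [C] at e1 e2 e3 e4 e5 e6
  zify
  rw [e1, e2, e3, e4, e5, e6]
  linarith

/-- vanishing outside the range -/
lemma sc_vanish (x y s L : ℕ) (N : ℕ) (hN : L + x + y + s ≤ N) (k : ℤ) (hk : ¬ (0 ≤ k ∧ k < N)) :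
    sc x y s L k = 0 := by
  unfold sc
  have : C x y L (k - s) = 0 := by
    by_cases h0 : k - s < 0
    · exact C_eq_zero_of_neg _ _ _ _ h0
    · apply C_eq_zero_of_large
      omega
  rw [this]
  rfl

lemma x0_vanish (k : ℤ) (hk : ¬ (0 ≤ k ∧ k < ((L + α + β + γ + δ : ℕ) : ℤ))) :
    x0 α β γ δ L k = 0 := by
  have := x0_cast α β γ δ L k
  have h1 : xi α β γ δ L k = 0 := by unfold xi; rw [if_neg hk]
  have h5 : C γ δ L k = 0 := by
    by_cases hk' : k < 0
    · exact C_eq_zero_of_neg _ _ _ _ hk'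
    · apply C_eq_zero_of_large
      push_cast at hk
      omega
  have h6 : C γ δ L (k - α - β) = 0 := by
    by_cases hk' : k < 0
    · exact C_eq_zero_of_neg _ _ _ _ (by omega)
    · apply C_eq_zero_of_large
      push_cast at hk
      omega
  rw [h1, h5, h6] at this
  simpa using this

lemma y0_vanish (hfh : α * β ≤ γ * δ) (k : ℤ)
    (hk : ¬ (0 ≤ k ∧ k < ((L + α + β + γ + δ : ℕ) : ℤ))) :
    y0 α β γ δ L k = 0 := by
  have := y0_cast α β γ δ L hfh k
  have h1 : xi α β γ δ L k = 0 := by unfold xi; rw [if_neg hk]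
  have h5 : C α β L k = 0 := by
    by_cases hk' : k < 0
    · exact C_eq_zero_of_neg _ _ _ _ hk'
    · apply C_eq_zero_of_large
      push_cast at hk
      omega
  have h6 : C α β L (k - γ - δ) = 0 := by
    by_cases hk' : k < 0
    · exact C_eq_zero_of_neg _ _ _ _ (by omega)
    · apply C_eq_zero_of_large
      push_cast at hk
      omega
  rw [h1, h5, h6] at this
  simpa using this

end margins

lemma fin3_row (w : Fin 3 → Fin 3 → ℕ) (x1 x2 x3 : ℕ) (h1 : w 0 0 + w 0 1 + w 0 2 = x1)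
    (h2 : w 1 0 + w 1 1 + w 1 2 = x2) (h3 : w 2 0 + w 2 1 + w 2 2 = x3) (k c v : ℤ) :
    ∑ i : Fin 3, ∑ j : Fin 3, (if k + c * lab i = v then w i j else 0) =
      (if k + c = v then x1 else 0) + (if k + 0 = v then x2 else 0)
        + (if k + (-c) = v then x3 else 0) := by
  simp only [Fin.sum_univ_three, lab_zero, lab_one, lab_two]
  have e1 : k + c * 1 = k + c := by ring
  have e2 : k + c * 0 = k + 0 := by ring
  have e3 : k + c * (-1) = k + (-c) := by ring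
  simp only [e1, e2, e3]
  split_ifs <;> omega

lemma fin3_col (w : Fin 3 → Fin 3 → ℕ) (x1 x2 x3 : ℕ) (h1 : w 0 0 + w 1 0 + w 2 0 = x1)
    (h2 : w 0 1 + w 1 1 + w 2 1 = x2) (h3 : w 0 2 + w 1 2 + w 2 2 = x3) (k c v : ℤ) :
    ∑ i : Fin 3, ∑ j : Fin 3, (if k + c * lab j = v then w i j else 0) =
      (if k + c = v then x1 else 0) + (if k + 0 = v then x2 else 0)
        + (if k + (-c) = v then x3 else 0) := by
  simp only [Fin.sum_univ_three, lab_zero, lab_one, lab_two]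
  have e1 : k + c * 1 = k + c := by ring
  have e2 : k + c * 0 = k + 0 := by ring
  have e3 : k + c * (-1) = k + (-c) := by ring
  simp only [e1, e2, e3]
  split_ifs <;> omega

/-- The weighted table of the pair model. -/
theorem pair_model (α β γ δ L : ℕ) (hfh : α * β ≤ γ * δ) (hBL : α + β + γ + δ ≤ L) :
    ∃ W : Fin (L + α + β + γ + δ) × Fin 3 × Fin 3 → ℕ,
      (∀ v : ℤ,
        ((∑ idx, (if ((idx.1 : ℕ) : ℤ) + (β : ℤ) * lab idx.2.1 = v then W idx else 0) : ℕ) : ℤ)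
          = xi α β γ δ L v) ∧
      (∀ v : ℤ,
        ((∑ idx, (if ((idx.1 : ℕ) : ℤ) + (-(α : ℤ)) * lab idx.2.1 = v then W idx else 0) : ℕ) : ℤ)
          = xi α β γ δ L v) ∧
      (∀ v : ℤ,
        ((∑ idx, (if ((idx.1 : ℕ) : ℤ) + (δ : ℤ) * lab idx.2.2 = v then W idx else 0) : ℕ) : ℤ)
          = xi α β γ δ L v) ∧
      (∀ v : ℤ,
        ((∑ idx, (if ((idx.1 : ℕ) : ℤ) + (-(γ : ℤ)) * lab idx.2.2 = v then W idx else 0) : ℕ) : ℤ)
          = xi α β γ δ L v) ∧
      2 * ((α : ℤ) * β) * ((L : ℤ) - 3 * (α + β + γ + δ)) ≤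
        ∑ idx, (W idx : ℤ) * (lab idx.2.1 * lab idx.2.2) ∧
      ∑ idx, (W idx : ℤ) * (lab idx.2.1 * lab idx.2.1) ≤
        2 * ((γ : ℤ) * δ) * ((L : ℤ) + (α + β + γ + δ)) := by
  classical
  have htab := fun k : ℤ => table (sc γ δ α L k) (x0 α β γ δ L k) (sc γ δ β L k)
    (sc α β γ L k) (y0 α β γ δ L k) (sc α β δ L k) (margins_eq α β γ δ L hfh k)
  choose w h1 h2 h3 h4 h5 h6 h7 h8 using htab
  set N := L + α + β + γ + δ with hN
  have hvan1 := sc_vanish γ δ α L N (by omega)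
  have hvan2 := sc_vanish γ δ β L N (by omega)
  have hvan3 := sc_vanish α β γ L N (by omega)
  have hvan4 := sc_vanish α β δ L N (by omega)
  have hvan5 := x0_vanish α β γ δ L
  have hvan6 := y0_vanish α β γ δ L hfh
  have colI : ∀ c v : ℤ,
      (∑ idx : Fin N × Fin 3 × Fin 3,
        (if ((idx.1 : ℕ) : ℤ) + c * lab idx.2.1 = v then w ((idx.1 : ℕ) : ℤ) idx.2.1 idx.2.2 else 0))
      = sc γ δ α L (v - c) + x0 α β γ δ L (v - 0) + sc γ δ β L (v - (-c)) := by
    intro c v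
    rw [Fintype.sum_prod_type]
    simp only [Fintype.sum_prod_type]
    simp only [fin3_row (w _) _ _ _ (h1 _) (h2 _) (h3 _)]
    rw [Finset.sum_add_distrib, Finset.sum_add_distrib, sum_shift _ N hvan1, sum_shift _ N hvan5,
      sum_shift _ N hvan2]
  have colJ : ∀ c v : ℤ,
      (∑ idx : Fin N × Fin 3 × Fin 3,
        (if ((idx.1 : ℕ) : ℤ) + c * lab idx.2.2 = v then w ((idx.1 : ℕ) : ℤ) idx.2.1 idx.2.2 else 0))
      = sc α β γ L (v - c) + y0 α β γ δ L (v - 0) + sc α β δ L (v - (-c)) := by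
    intro c v
    rw [Fintype.sum_prod_type]
    simp only [Fintype.sum_prod_type]
    simp only [fin3_col (w _) _ _ _ (h4 _) (h5 _) (h6 _)]
    rw [Finset.sum_add_distrib, Finset.sum_add_distrib, sum_shift _ N hvan3, sum_shift _ N hvan6,
      sum_shift _ N hvan4]
  refine ⟨fun idx => w ((idx.1 : ℕ) : ℤ) idx.2.1 idx.2.2, ?_, ?_, ?_, ?_, ?_, ?_⟩
  · intro v
    simp only []
    rw [colI]
    push_cast
    rw [sc_cast, sc_cast, x0_cast]
    have e1 : v - (β : ℤ) - (α : ℤ) = v - 0 - α - β := by ring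
    have e2 : v - (-(β : ℤ)) - (β : ℤ) = v - 0 := by ring
    rw [e1, e2]
    ring_nf
  · intro v
    simp only []
    rw [colI]
    push_cast
    rw [sc_cast, sc_cast, x0_cast]
    have e1 : v - (-(α : ℤ)) - (α : ℤ) = v - 0 := by ring
    have e2 : v - (-(-(α : ℤ))) - (β : ℤ) = v - 0 - α - β := by ring
    rw [e1, e2]
    ring_nf
  · intro v
    simp only []
    rw [colJ]
    push_cast
    rw [sc_cast, sc_cast, y0_cast α β γ δ L hfh]
    have e1 : v - (δ : ℤ) - (γ : ℤ) = v - 0 - γ - δ := by ring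
    have e2 : v - (-(δ : ℤ)) - (δ : ℤ) = v - 0 := by ring
    rw [e1, e2]
    ring_nf
  · intro v
    simp only []
    rw [colJ]
    push_cast
    rw [sc_cast, sc_cast, y0_cast α β γ δ L hfh]
    have e1 : v - (-(γ : ℤ)) - (γ : ℤ) = v - 0 := by ring
    have e2 : v - (-(-(γ : ℤ))) - (δ : ℤ) = v - 0 - γ - δ := by ring
    rw [e1, e2]
    ring_nf
  · -- the cross sum
    rw [Fintype.sum_prod_type]
    simp only [Fintype.sum_prod_type, Fin.sum_univ_three, lab_zero, lab_one, lab_two]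
    -- the summand at level k
    set g : ℕ → ℤ := fun k =>
      (w (k : ℤ) 0 0 : ℤ) * (1 * 1) + (w (k : ℤ) 0 1 : ℤ) * (1 * 0) + (w (k : ℤ) 0 2 : ℤ) * (1 * (-1))
      + ((w (k : ℤ) 1 0 : ℤ) * (0 * 1) + (w (k : ℤ) 1 1 : ℤ) * (0 * 0)
        + (w (k : ℤ) 1 2 : ℤ) * (0 * (-1)))
      + ((w (k : ℤ) 2 0 : ℤ) * ((-1) * 1) + (w (k : ℤ) 2 1 : ℤ) * ((-1) * 0)
        + (w (k : ℤ) 2 2 : ℤ) * ((-1) * (-1))) with hg
    have hsumg : ∀ k : ℕ, -(2 * ((α : ℤ) * β)) ≤ g k := by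
      intro k
      have e1 := h4 (k : ℤ)
      have e3 := h6 (k : ℤ)
      have b1 : (sc α β γ L (k : ℤ) : ℤ) ≤ (α : ℤ) * β := by
        rw [sc_cast]; exact C_le _ _ _ _
      have b2 : (sc α β δ L (k : ℤ) : ℤ) ≤ (α : ℤ) * β := by
        rw [sc_cast]; exact C_le _ _ _ _
      simp only [hg]
      zify at e1 e3
      nlinarith [Int.natCast_nonneg (w (k : ℤ) 0 0), Int.natCast_nonneg (w (k : ℤ) 1 0),
        Int.natCast_nonneg (w (k : ℤ) 2 0), Int.natCast_nonneg (w (k : ℤ) 0 2),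
        Int.natCast_nonneg (w (k : ℤ) 1 2), Int.natCast_nonneg (w (k : ℤ) 2 2),
        Int.natCast_nonneg (w (k : ℤ) 0 1), Int.natCast_nonneg (w (k : ℤ) 1 1),
        Int.natCast_nonneg (w (k : ℤ) 2 1)]
    have hbulk : ∀ k : ℕ, α + β + γ + δ ≤ k → k < L → 2 * ((α : ℤ) * β) ≤ g k := by
      intro k hk1 hk2
      have hk1' : (α : ℤ) + β + γ + δ ≤ k := by exact_mod_cast hk1
      have hk2' : (k : ℤ) < L := by exact_mod_cast hk2
      have c1 : (sc γ δ α L (k : ℤ) : ℤ) = (γ : ℤ) * δ := by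
        rw [sc_cast]; apply C_eq_of_bulk <;> omega
      have c2 : (sc γ δ β L (k : ℤ) : ℤ) = (γ : ℤ) * δ := by
        rw [sc_cast]; apply C_eq_of_bulk <;> omega
      have c3 : (sc α β γ L (k : ℤ) : ℤ) = (α : ℤ) * β := by
        rw [sc_cast]; apply C_eq_of_bulk <;> omega
      have c4 : (sc α β δ L (k : ℤ) : ℤ) = (α : ℤ) * β := by
        rw [sc_cast]; apply C_eq_of_bulk <;> omega
      have c1' : sc γ δ α L (k : ℤ) = γ * δ := by exact_mod_cast c1
      have c2' : sc γ δ β L (k : ℤ) = γ * δ := by exact_mod_cast c2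
      have c3' : sc α β γ L (k : ℤ) = α * β := by exact_mod_cast c3
      have c4' : sc α β δ L (k : ℤ) = α * β := by exact_mod_cast c4
      have e7 := h7 (k : ℤ)
      have e8 := h8 (k : ℤ)
      rw [c1', c3', min_eq_right hfh] at e7
      rw [c2', c4', min_eq_right hfh] at e8
      have e4 := h4 (k : ℤ)
      have e6 := h6 (k : ℤ)
      rw [c3'] at e4
      rw [c4'] at e6
      simp only [hg]
      have w20 : w (k : ℤ) 2 0 = 0 := by omega
      have w02 : w (k : ℤ) 0 2 = 0 := by omega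
      rw [w20, w02, e7, e8]
      push_cast
      nlinarith
    have hsplit : ∑ k : Fin N, g (k : ℕ) = ∑ k ∈ Finset.range N, g k :=
      Fin.sum_univ_eq_sum_range g N
    have goal_eq : ∑ x : Fin N, (((w (((x : ℕ) : ℤ)) 0 0 : ℕ) : ℤ) * (1 * 1)
        + ((w (((x : ℕ) : ℤ)) 0 1 : ℕ) : ℤ) * (1 * 0) + ((w (((x : ℕ) : ℤ)) 0 2 : ℕ) : ℤ) * (1 * (-1))
        + (((w (((x : ℕ) : ℤ)) 1 0 : ℕ) : ℤ) * (0 * 1) + ((w (((x : ℕ) : ℤ)) 1 1 : ℕ) : ℤ) * (0 * 0)
          + ((w (((x : ℕ) : ℤ)) 1 2 : ℕ) : ℤ) * (0 * (-1)))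
        + (((w (((x : ℕ) : ℤ)) 2 0 : ℕ) : ℤ) * ((-1) * 1) + ((w (((x : ℕ) : ℤ)) 2 1 : ℕ) : ℤ) * ((-1) * 0)
          + ((w (((x : ℕ) : ℤ)) 2 2 : ℕ) : ℤ) * ((-1) * (-1)))) = ∑ k : Fin N, g (k : ℕ) := rfl
    rw [goal_eq, hsplit]
    obtain ⟨M, hM⟩ : ∃ M, L = α + β + γ + δ + M := ⟨L - (α + β + γ + δ), by omega⟩
    have hN' : N = (α + β + γ + δ) + M + (α + β + γ + δ) := by omega
    rw [hN', Finset.sum_range_add, Finset.sum_range_add]
    set B := α + β + γ + δ with hB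
    have s1 : -(2 * ((α : ℤ) * β)) * (B : ℤ) ≤ ∑ k ∈ Finset.range B, g k := by
      calc -(2 * ((α : ℤ) * β)) * (B : ℤ) = ∑ _k ∈ Finset.range B, (-(2 * ((α : ℤ) * β))) := by
            simp; ring
        _ ≤ _ := Finset.sum_le_sum (fun k _ => hsumg k)
    have s2 : (2 * ((α : ℤ) * β)) * (M : ℤ) ≤ ∑ k ∈ Finset.range M, g (B + k) := by
      calc (2 * ((α : ℤ) * β)) * (M : ℤ) = ∑ _k ∈ Finset.range M, (2 * ((α : ℤ) * β)) := by
            simp; ring
        _ ≤ _ := Finset.sum_le_sum (fun k hk => hbulk _ (by omega)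
            (by have := Finset.mem_range.mp hk; omega))
    have s3 : -(2 * ((α : ℤ) * β)) * (B : ℤ) ≤ ∑ k ∈ Finset.range B, g (B + M + k) := by
      calc -(2 * ((α : ℤ) * β)) * (B : ℤ) = ∑ _k ∈ Finset.range B, (-(2 * ((α : ℤ) * β))) := by
            simp; ring
        _ ≤ _ := Finset.sum_le_sum (fun k _ => hsumg _)
    have hL : (L : ℤ) = B + M := by rw [hM]; push_cast; ring
    have hB' : (α : ℤ) + β + γ + δ = B := by rw [hB]; push_cast; ring
    rw [hB', hL]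
    nlinarith
  · -- the square sum
    rw [Fintype.sum_prod_type]
    simp only [Fintype.sum_prod_type, Fin.sum_univ_three, lab_zero, lab_one, lab_two]
    have hle : ∀ x : Fin N, ((w (((x : ℕ) : ℤ)) 0 0 : ℕ) : ℤ) * (1 * 1)
        + ((w (((x : ℕ) : ℤ)) 0 1 : ℕ) : ℤ) * (1 * 1) + ((w (((x : ℕ) : ℤ)) 0 2 : ℕ) : ℤ) * (1 * 1)
        + (((w (((x : ℕ) : ℤ)) 1 0 : ℕ) : ℤ) * (0 * 0) + ((w (((x : ℕ) : ℤ)) 1 1 : ℕ) : ℤ) * (0 * 0)
          + ((w (((x : ℕ) : ℤ)) 1 2 : ℕ) : ℤ) * (0 * 0))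
        + (((w (((x : ℕ) : ℤ)) 2 0 : ℕ) : ℤ) * ((-1) * (-1)) + ((w (((x : ℕ) : ℤ)) 2 1 : ℕ) : ℤ) * ((-1) * (-1))
          + ((w (((x : ℕ) : ℤ)) 2 2 : ℕ) : ℤ) * ((-1) * (-1))) ≤ 2 * ((γ : ℤ) * δ) := by
      intro x
      have e1 := h1 (((x : ℕ) : ℤ))
      have e3 := h3 (((x : ℕ) : ℤ))
      have b1 : (sc γ δ α L (((x : ℕ) : ℤ)) : ℤ) ≤ (γ : ℤ) * δ := by
        rw [sc_cast]; exact C_le _ _ _ _
      have b2 : (sc γ δ β L (((x : ℕ) : ℤ)) : ℤ) ≤ (γ : ℤ) * δ := by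
        rw [sc_cast]; exact C_le _ _ _ _
      zify at e1 e3
      linarith
    calc _ ≤ ∑ _x : Fin N, 2 * ((γ : ℤ) * δ) := Finset.sum_le_sum (fun x _ => hle x)
      _ = 2 * ((γ : ℤ) * δ) * ((L : ℤ) + (α + β + γ + δ)) := by
        simp [hN]
        ring

end Vale.Agent.Lib.P058_helper23
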